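import Vale.Agent.Lib.P038.Sat.Shapes.S6_4t
noncomputable section
namespace Vale.Agent.Lib.P038.Sat.I.M1_4
open Vale.Agent.Lib.P038.Sat
def W : Nat := 1609
def M : Nat := 22764757236272150845448608801544890529699448070214573731542130224001885731721805946360208679001072341752808202824217284477494812905105397409989128551225758781216043560253652980086121317552684563986396549772842919559887665185494104910174738323915834363713045672574387360783297106750713554881423144392753679201516304384980639419833584098380232809470916520072049300631664767591769467222945129379105159685099673799496623780831236309234572873990107774355582238483953130135634240698698432511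
def GT : Nat := 79760195105591299192543179786280783117732293351172989179820430811357938463272120850693147799020667471359489530986211913790442305204875194421075845601348529813710184277847985793663411952894337230227399231562081280643627427366991846465213575906417725225132035528006244510692411834680352591794891589231861269414978278510086321592637604279127997892568625163926953536717695417766677979717312789310592253058593680002297918884848896857591630403575133252616249451245295000031435642722968495253012389903337676179132455908824405638945287634117606801368083045382251941760355292785872972237452708437117118415605904501661533881467626267752486099824673124336501971603874801551728604878403111891458363145573017043924992237835085658831501793769414149931750298619448300018700821346756940068018779365190683322642868105484656065227281343426837188278634144112127062058532109475392468315630734943021188336454528321673533795771582074739606054672533379600422443587807915785696267272248933949836397035807070591518576860432245417978397388633238771044973766258275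8141322536229017628745553616680206004145458000700275882454103826565796389295676918664213239784302484386872938940212680884645539739764763358673244161720604569136787915553723790606921821693037079692135251880607156656998291085333136803883121883817603909577645077744645321115265807861771606489098413289780333980670454340642429809308051654071677212414622787382736692211734400376399339843932633667791900340301088664407561833965306518171191199628162041693820244243144923952120281801254246688537580655033056928732965166296290342556738033707640780308715759382109928132091834037265495503575859060864194581578312140448068907300356767463370058084924046893867846744866322253683898242268045702127018890222070258941836631031059289556137200533044259406404635208579900127424481032199628454700358417302342004514754528105057883166266206975129182466104229836187345682996954950811409996773974458148923554355151696400186195531496614536783174554350171422521184988763816326838710883380003589048943584013269492437875428348272865399876688438713258784305871533467266362002446144848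2345123843169676661985213034460793995315344619882346976605137239915999046510893792239768305880974389920791393453384628331769145698227348410910959990387733238398136276934138467383996372000057763864977664561227139391048031642045549770632564002554304929263598385706605902494871183046875696945002923269599836147187289496036379042624258678546926046484592092501305309024374689336571637564973809852405145734891118338106016526483201517775212690426386210650195124915471845478180308103074529462148071947751907778747142551196078771670882188310379023132946131205708746395523346828624470276448644914296593123436861518479652941222593060042110048384011867226817649522383778174138182487376345621931437488939892117388954421135352296725628671384445023721097221661967443903265258592130561499651865242837209140707498937286601898722679800623205651026571843315472209008662912169561794368773902053967522944043806808864256745981602441856560574382137988024167554579041959348685380486917482441308513841810729481114118637220992180910425959262145446442573154884535380175199563845345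3657686311198635230154592855467063545304117403868262025743549258629519368114517823297383637403771950885191049840357637860183192950853883418886315398128938497123073318838084847218296529148481471954196620583428265981145803869803948139283219570990454544487172829979984106832813650619916616840820271772914336748454102800767605642952420653576354555337480642151970134169967488027864338031786745867927508479808764258382224952760243173787646400004992467768752093412110848323838791227991955382455180376814049049723332156186838546537488751033163225131908475247209084784493271436183949492411540182753478050491956974082052965759764117534110003357751059210762887060599711480891668440169125702142295814229810486072123298799919616175854696364628278531302621470174072641876843137530668617328004976766605321378433150932276172741597610530446793857493300087057291544053491760290599070873285412273472048169892341271600107961009904582950050431669826788919854100701271098731746477278185636460316178307594804774037808391694716038199127447683197844782824439453177210994841742374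4083625388600256601593074660407515639586437561638677585520761839093554086019534779692302538013799807769793603845714769183716960161817968746705339866007957620179721460940340825576974883118563191863973263632343466446490377450145891102452825560731615580659576110068889678561864997067093272086099236868852742643207347164906400777601493141506436270033692160999876182738402627777756823582006313965627131994711403890617856039277483628320033429823459636834607283351840831114834799664532589327953142554237448943009736623448790722291518259876937841091223447691586782965200153392573029975514501303392072423630763951463053563386779520770281995951115049413605057222248077989704464973821774484587574411462929947875607883625421123350853086085729163361770062496652521309204468367568449475409792349095519746775678578316503735542459622303230297924281345488981161430305590680097652473411429118476048971636453544501035077110140971021324739799254837711775171821862382671457136143275734770760128892433265488939853230973675343675866855084817434780955532675097777749708506894704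6539431766495814191108173387534093857546096085576443558830173270021179919046570333398246907893707683421589120498099423333552105347321713843968617303208728804693991905119742017106057312378629970483441330975330533833845874301636598422723103558119569732388722436198441746588856039654708795297917773279714271885479090649659193412106759960503415727193975136281847581726437774164494603317957644114014734877764897224668296425753929527790923112862107977205026185352877610666522711512410778937154474674895144396615013997809787017017254131901179244774910525728580018620997791660450444606227266779894048065142357289121936437233076856705752037277607222426923907379572284323946821902277385747147176614569777200419291553426174309731696751407906696461165399719205042627570528716933806533121867284897587068926312172190954252826482787974467525056640569863337153122033677716059327718098117657084457473016737227139324983884666756319310845654741007133973719041020245218512172320026990831517114828043400695518347801563535556209586775335613070092987817840471794006104881346274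4994933134507360658850469341610936820855390785892830895805976933505327460078113221783561590113983995009068782253645893738732351210460410658904530933282010532962570162676677517779686758060022541500283161879343800158533089786194804828645262294006938606560300448487176268733580874693290029758807018614462889707836043481374432747184417360565742583483263649013323672386315791688745993263638764912663665163608345366419475550006670601192048580691235734805535623283851681518391063955937720430379640084882984122863879141953851311570633381543628165763479034181550544288577736253770529482465362490123737536707215205087321249373978559217047813981111247498663019931941498301907917085761199177269943105436408265884472426863978625295500414173128731011192407360300760239519640488837514011670564889565817876197999331071955629144383004638960488158076476598494385161814711667825654814067874293447705341356494474625247494787042159019027600625226985633898130383267714224610115145186891998927059171534933582568820851778501493387267802182324243938180609912000222090612692880540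7048970804511354524186621124438996025829373990714031087345523060774948261788814774641782159359532733790813658217127618545391083553393274355939972844567919177233885718408473073846401796391801795958067337745435358813431719505249151815601609919416319377049450944340333539118752885248823281661989656823699936268650697313343250138632564356673695938891915654526736045695238430170485695318677726461547563827255990643922565415798270148809371185591227074015055327814689081267497555765390285445314704641765667079401700217567649364701022694301598369635570818197199613421526529770869060600002119340534213151828412782294247924226059581488679212242520820021676386084260702659962703098700124575380004211660586277772359874578518447429683528939295880918518421519444725048709094319624740937423394620757569210125410713265905542120027206185925941708896799022061905742414725653675803605501606970968142397842181446876504916257363515848845639308664351386141239648242817554428826292900690843164195480329320871971287639130185389416398716400751036509756191784791242809297752184666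2281139708900198891949141379989522295367304463609587141103044768812344610590122358754398643057196382267292369683518005527135642291643075110523104066138671413281267025043188117430112997402403565070700519513171147371976544690576421245453417936851772505471065169460092275014518246972352784373591855148900041876884884586811882520274475918613287504408820463814817123239945779392921643008824818395073356477442942576623413425447783623753499691756600225296253380736032836265833457218021067578445629858910593282290198383390914112108231399526207464898539757766316959770666697084340805253773359619086722294057862342190842647253271981669398153490244870620650500708288408942098939486461435494866290493197879134139383031067461974640868593289187974082157385976840938341011106814376561249632497167878549606446114476172033211718655456040301006014844569312076889391839891964339530599573620964644139928724159165193620572356993137291441143332516559971616657462086657909032395867554622415821722487920152785199782915662292696416450130002769233646264713100477829625925074281778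3257133572917222215748928754620350070823669758455438489936625931117677937277133050534128953792601143936041944768824371981519855805692035191342192378845264673713903153059529739781342077585724329692250347903937888725733954184847120860453383572871306844835866807851450737595882913329737028923463542614300426832092483167723386946659131435995280857209617774783545782371375756681425933496379305153798059277220820738923274373578556018278938102601602771332157126885024146560528522630707218944052550817390899364530610264155757663894739895574059269888628105643802995303483048455381273737358329082187177930644743449636672112775522688915107023315503455063914408800590164095851679888154960762609964775736080816824390106142630641042809548888842419094847204033950184867623875382837560846181364996464127006419012043272919887133124375404954393470923422923140898113101022126505196539759254616149015445367894779269862587840847242115115348552437549202330300190366165428343922701088399541975119881726258572007109460066688454972374022268077097790052534878939388499639073077323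46334934770650522328969526608542186778145878626072043538935495266170437472213157622606552664831465787860575382144745126158332536101213227872186842612045305077089998943951849291299321450076536848152862487078297796228539472002435257385845082144839425186227910368359928667278459117777620957871605030199766563677131672333522374564881767347136504320325803572149602209068496704201661321460850680747740080910942689364122504321070416812717049820209632873189055746226614474208151421988064166156413713554650601181510111789942560299794668155251572982074928420874316499766224305740573572504488133432124033770523462335446399454925881732478731727066516779270611810164778995255552102647270635754777638317251740435371663184737824618045183674131117765755975741395516084588202411065883774388286857271129980676177541369099676361618879994529788075023079427738012168824552835147722082715893146585417122806467793247491402036802916896110766665192557325027707089105546302425048441692172870042348347301059309989613198453278631917679997786715843702030472166893170489136968293986194587284044617789345307823920110951386644004353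
def h0 : T := (T.n (nat_lit 255) (T.n (nat_lit 127) (T.n (nat_lit 63) (T.n (nat_lit 31) (T.n (nat_lit 15) (T.n (nat_lit 7) (T.n (nat_lit 3) (T.n (nat_lit 1) (T.n (nat_lit 0) (T.l (nat_lit 10382129)) (T.l (nat_lit 13682438))) (T.n (nat_lit 2) (T.l (nat_lit 879293)) (T.l (nat_lit 753689)))) (T.n (nat_lit 5) (T.n (nat_lit 4) (T.l (nat_lit 856774206864770231)) (T.l (nat_lit 3883154))) (T.n (nat_lit 6) (T.l (nat_lit 126457467479781)) (T.l (nat_lit 217272009622359))))) (T.n (nat_lit 11) (T.n (nat_lit 9) (T.n (nat_lit 8) (T.l (nat_lit 9955233)) (T.l (nat_lit 13386057))) (T.n (nat_lit 10) (T.l (nat_lit 13386059)) (T.l (nat_lit 129131783780)))) (T.n (nat_lit 13) (T.n (nat_lit 12) (T.l (nat_lit 13395649)) (T.l (nat_lit 3522904))) (T.n (nat_lit 14) (T.l (nat_lit 130992350193673)) (T.l (nat_lit 501491)))))) (T.n (nat_lit 23) (T.n (nat_lit 19) (T.n (nat_lit 17) (T.n (nat_lit 16) (T.l (nat_lit 878374)) (T.l (nat_lit 3395197092949607810976))) (T.n (nat_lit 18) (T.l (nat_lit 13386062)) (T.l (nat_lit 13386058)))) (T.n (nat_lit 21) (T.n (nat_lit 20) (T.l (nat_lit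 387974242078573126660600236062775399762020)) (T.l (nat_lit 5351293))) (T.n (nat_lit 22) (T.l (nat_lit 95684026566560)) (T.l (nat_lit 14663719))))) (T.n (nat_lit 27) (T.n (nat_lit 25) (T.n (nat_lit 24) (T.l (nat_lit 50853)) (T.l (nat_lit 147979264089))) (T.n (nat_lit 26) (T.l (nat_lit 106110926210694)) (T.l (nat_lit 563102977499937)))) (T.n (nat_lit 29) (T.n (nat_lit 28) (T.l (nat_lit 4407427)) (T.l (nat_lit 938465725564084))) (T.n (nat_lit 30) (T.l (nat_lit 115373868814)) (T.l (nat_lit 2407296899952046490276))))))) (T.n (nat_lit 47) (T.n (nat_lit 39) (T.n (nat_lit 35) (T.n (nat_lit 33) (T.n (nat_lit 32) (T.l (nat_lit 2036546273766516713)) (T.l (nat_lit 83428648452415495522747171))) (T.n (nat_lit 34) (T.l (nat_lit 919254488211987)) (T.l (nat_lit 906664509228978)))) (T.n (nat_lit 37) (T.n (nat_lit 36) (T.l (nat_lit 86659437689103150313756846139)) (T.l (nat_lit 1155697397614391))) (T.n (nat_lit 38) (T.l (nat_lit 13363058)) (T.l (nat_lit 1084121622636111))))) (T.n (nat_lit 43) (T.n (nat_lit 41) (T.n (nat_lit 40) (T.l (nat_lit 59807245538614919323932))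 (T.l (nat_lit 36313622226))) (T.n (nat_lit 42) (T.l (nat_lit 142510049902681)) (T.l (nat_lit 1417618)))) (T.n (nat_lit 45) (T.n (nat_lit 44) (T.l (nat_lit 4828189644637257784289052385673478)) (T.l (nat_lit 848577717964083398800))) (T.n (nat_lit 46) (T.l (nat_lit 7421955832722073288)) (T.l (nat_lit 2280003550478903208)))))) (T.n (nat_lit 55) (T.n (nat_lit 51) (T.n (nat_lit 49) (T.n (nat_lit 48) (T.l (nat_lit 116773380165)) (T.l (nat_lit 109790152405))) (T.n (nat_lit 50) (T.l (nat_lit 131197878341)) (T.l (nat_lit 194839425650504547885677808767562769850037326692839)))) (T.n (nat_lit 53) (T.n (nat_lit 52) (T.l (nat_lit 7950220090910419240)) (T.l (nat_lit 9439743330163605567))) (T.n (nat_lit 54) (T.l (nat_lit 22072784288873328647719016)) (T.l (nat_lit 103604345872441350))))) (T.n (nat_lit 59) (T.n (nat_lit 57) (T.n (nat_lit 56) (T.l (nat_lit 4981413593411865986807)) (T.l (nat_lit 1484677))) (T.n (nat_lit 58) (T.l (nat_lit 1394417)) (T.l (nat_lit 5947708)))) (T.n (nat_lit 61) (T.n (nat_lit 60) (T.l (nat_lit 3884445)) (T.l (nat_lit 4408734))) (T.n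 (nat_lit 62) (T.l (nat_lit 3956867)) (T.l (nat_lit 8749399)))))))) (T.n (nat_lit 95) (T.n (nat_lit 79) (T.n (nat_lit 71) (T.n (nat_lit 67) (T.n (nat_lit 65) (T.n (nat_lit 64) (T.l (nat_lit 5808217)) (T.l (nat_lit 7987462))) (T.n (nat_lit 66) (T.l (nat_lit 12346576)) (T.l (nat_lit 1050294)))) (T.n (nat_lit 69) (T.n (nat_lit 68) (T.l (nat_lit 2410239)) (T.l (nat_lit 10062505))) (T.n (nat_lit 70) (T.l (nat_lit 2631434)) (T.l (nat_lit 9505317))))) (T.n (nat_lit 75) (T.n (nat_lit 73) (T.n (nat_lit 72) (T.l (nat_lit 3557076)) (T.l (nat_lit 9644679))) (T.n (nat_lit 74) (T.l (nat_lit 4351846)) (T.l (nat_lit 11586512)))) (T.n (nat_lit 77) (T.n (nat_lit 76) (T.l (nat_lit 5056472)) (T.l (nat_lit 11996162))) (T.n (nat_lit 78) (T.l (nat_lit 1826842)) (T.l (nat_lit 1829794)))))) (T.n (nat_lit 87) (T.n (nat_lit 83) (T.n (nat_lit 81) (T.n (nat_lit 80) (T.l (nat_lit 1548396)) (T.l (nat_lit 3653999))) (T.n (nat_lit 82) (T.l (nat_lit 2187515)) (T.l (nat_lit 3941003)))) (T.n (nat_lit 85) (T.n (nat_lit 84) (T.l (nat_lit 2752767)) (T.l (nat_lit 4276924))) (T.n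 (nat_lit 86) (T.l (nat_lit 680630)) (T.l (nat_lit 3670630))))) (T.n (nat_lit 91) (T.n (nat_lit 89) (T.n (nat_lit 88) (T.l (nat_lit 10634530)) (T.l (nat_lit 1155977))) (T.n (nat_lit 90) (T.l (nat_lit 2925196)) (T.l (nat_lit 8037514)))) (T.n (nat_lit 93) (T.n (nat_lit 92) (T.l (nat_lit 6612244)) (T.l (nat_lit 484100))) (T.n (nat_lit 94) (T.l (nat_lit 5563502)) (T.l (nat_lit 12010865))))))) (T.n (nat_lit 111) (T.n (nat_lit 103) (T.n (nat_lit 99) (T.n (nat_lit 97) (T.n (nat_lit 96) (T.l (nat_lit 11937138)) (T.l (nat_lit 4973057))) (T.n (nat_lit 98) (T.l (nat_lit 5423703)) (T.l (nat_lit 2539760)))) (T.n (nat_lit 101) (T.n (nat_lit 100) (T.l (nat_lit 2072768)) (T.l (nat_lit 11945332))) (T.n (nat_lit 102) (T.l (nat_lit 5046865)) (T.l (nat_lit 4252089))))) (T.n (nat_lit 107) (T.n (nat_lit 105) (T.n (nat_lit 104) (T.l (nat_lit 3178779)) (T.l (nat_lit 1892574))) (T.n (nat_lit 106) (T.l (nat_lit 11961795)) (T.l (nat_lit 11552075)))) (T.n (nat_lit 109) (T.n (nat_lit 108) (T.l (nat_lit 5194253)) (T.l (nat_lit 4547074))) (T.n (nat_lit 110) (T.l (nat_lit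 3154216)) (T.l (nat_lit 2621732)))))) (T.n (nat_lit 119) (T.n (nat_lit 115) (T.n (nat_lit 113) (T.n (nat_lit 112) (T.l (nat_lit 11953534)) (T.l (nat_lit 7889851))) (T.n (nat_lit 114) (T.l (nat_lit 5718662)) (T.l (nat_lit 3834327)))) (T.n (nat_lit 117) (T.n (nat_lit 116) (T.l (nat_lit 2498812)) (T.l (nat_lit 23710524))) (T.n (nat_lit 118) (T.l (nat_lit 11979724)) (T.l (nat_lit 10464113))))) (T.n (nat_lit 123) (T.n (nat_lit 121) (T.n (nat_lit 120) (T.l (nat_lit 17762596)) (T.l (nat_lit 25693237))) (T.n (nat_lit 122) (T.l (nat_lit 24169279)) (T.l (nat_lit 21965878)))) (T.n (nat_lit 125) (T.n (nat_lit 124) (T.l (nat_lit 8784842)) (T.l (nat_lit 11928961))) (T.n (nat_lit 126) (T.l (nat_lit 140984)) (T.l (nat_lit 141057))))))))) (T.n (nat_lit 191) (T.n (nat_lit 159) (T.n (nat_lit 143) (T.n (nat_lit 135) (T.n (nat_lit 131) (T.n (nat_lit 129) (T.n (nat_lit 128) (T.l (nat_lit 141082)) (T.l (nat_lit 141111))) (T.n (nat_lit 130) (T.l (nat_lit 141234)) (T.l (nat_lit 141541)))) (T.n (nat_lit 133) (T.n (nat_lit 132) (T.l (nat_lit 329336)) (T.l (nat_lit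 329320))) (T.n (nat_lit 134) (T.l (nat_lit 329522)) (T.l (nat_lit 329523))))) (T.n (nat_lit 139) (T.n (nat_lit 137) (T.n (nat_lit 136) (T.l (nat_lit 329698)) (T.l (nat_lit 329741))) (T.n (nat_lit 138) (T.l (nat_lit 329783)) (T.l (nat_lit 132716)))) (T.n (nat_lit 141) (T.n (nat_lit 140) (T.l (nat_lit 132724)) (T.l (nat_lit 132869))) (T.n (nat_lit 142) (T.l (nat_lit 132841)) (T.l (nat_lit 133007)))))) (T.n (nat_lit 151) (T.n (nat_lit 147) (T.n (nat_lit 145) (T.n (nat_lit 144) (T.l (nat_lit 133057)) (T.l (nat_lit 133184))) (T.n (nat_lit 146) (T.l (nat_lit 181856)) (T.l (nat_lit 181997)))) (T.n (nat_lit 149) (T.n (nat_lit 148) (T.l (nat_lit 181996)) (T.l (nat_lit 182107))) (T.n (nat_lit 150) (T.l (nat_lit 182222)) (T.l (nat_lit 182332))))) (T.n (nat_lit 155) (T.n (nat_lit 153) (T.n (nat_lit 152) (T.l (nat_lit 222799)) (T.l (nat_lit 222808))) (T.n (nat_lit 154) (T.l (nat_lit 222895)) (T.l (nat_lit 222979)))) (T.n (nat_lit 157) (T.n (nat_lit 156) (T.l (nat_lit 223187)) (T.l (nat_lit 223139))) (T.n (nat_lit 158) (T.l (nat_lit 223374)) (T.l (nat_lit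 452181))))))) (T.n (nat_lit 175) (T.n (nat_lit 167) (T.n (nat_lit 163) (T.n (nat_lit 161) (T.n (nat_lit 160) (T.l (nat_lit 452183)) (T.l (nat_lit 452283))) (T.n (nat_lit 162) (T.l (nat_lit 452314)) (T.l (nat_lit 452437)))) (T.n (nat_lit 165) (T.n (nat_lit 164) (T.l (nat_lit 452445)) (T.l (nat_lit 452601))) (T.n (nat_lit 166) (T.l (nat_lit 13682389)) (T.l (nat_lit 16115400))))) (T.n (nat_lit 171) (T.n (nat_lit 169) (T.n (nat_lit 168) (T.l (nat_lit 14059217)) (T.l (nat_lit 14395076))) (T.n (nat_lit 170) (T.l (nat_lit 111152669047)) (T.l (nat_lit 110344946039)))) (T.n (nat_lit 173) (T.n (nat_lit 172) (T.l (nat_lit 109538156919)) (T.l (nat_lit 118460375415))) (T.n (nat_lit 174) (T.l (nat_lit 108798861687)) (T.l (nat_lit 33303970976)))))) (T.n (nat_lit 183) (T.n (nat_lit 179) (T.n (nat_lit 177) (T.n (nat_lit 176) (T.l (nat_lit 147239453910)) (T.l (nat_lit 135092945894))) (T.n (nat_lit 178) (T.l (nat_lit 14713332829)) (T.l (nat_lit 118448997065)))) (T.n (nat_lit 181) (T.n (nat_lit 180) (T.l (nat_lit 11691402010)) (T.l (nat_lit 13637559238))) (T.n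 (nat_lit 182) (T.l (nat_lit 15449498585)) (T.l (nat_lit 36454573183))))) (T.n (nat_lit 187) (T.n (nat_lit 185) (T.n (nat_lit 184) (T.l (nat_lit 118451135773)) (T.l (nat_lit 118454625462))) (T.n (nat_lit 186) (T.l (nat_lit 11491009208)) (T.l (nat_lit 17396589313)))) (T.n (nat_lit 189) (T.n (nat_lit 188) (T.l (nat_lit 126099718928)) (T.l (nat_lit 17799242617))) (T.n (nat_lit 190) (T.l (nat_lit 126102365220)) (T.l (nat_lit 45448094747)))))))) (T.n (nat_lit 223) (T.n (nat_lit 207) (T.n (nat_lit 199) (T.n (nat_lit 195) (T.n (nat_lit 193) (T.n (nat_lit 192) (T.l (nat_lit 147250381135)) (T.l (nat_lit 108999254351))) (T.n (nat_lit 194) (T.l (nat_lit 108933079375)) (T.l (nat_lit 114691795294)))) (T.n (nat_lit 197) (T.n (nat_lit 196) (T.l (nat_lit 114423359978)) (T.l (nat_lit 114490468664))) (T.n (nat_lit 198) (T.l (nat_lit 111873222601)) (T.l (nat_lit 118461162448))))) (T.n (nat_lit 203) (T.n (nat_lit 201) (T.n (nat_lit 200) (T.l (nat_lit 133499175888)) (T.l (nat_lit 134171411408))) (T.n (nat_lit 202) (T.l (nat_lit 134225725752)) (T.l (nat_lit 122548783049))))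 (T.n (nat_lit 205) (T.n (nat_lit 204) (T.l (nat_lit 137995469870)) (T.l (nat_lit 139137467438))) (T.n (nat_lit 206) (T.l (nat_lit 137716156728)) (T.l (nat_lit 125636560841)))))) (T.n (nat_lit 215) (T.n (nat_lit 211) (T.n (nat_lit 209) (T.n (nat_lit 208) (T.l (nat_lit 112214272350)) (T.l (nat_lit 112751143402))) (T.n (nat_lit 210) (T.l (nat_lit 110737877304)) (T.l (nat_lit 115838150601)))) (T.n (nat_lit 213) (T.n (nat_lit 212) (T.l (nat_lit 119060711774)) (T.l (nat_lit 114631526890))) (T.n (nat_lit 214) (T.l (nat_lit 117517207864)) (T.l (nat_lit 120738432969))))) (T.n (nat_lit 219) (T.n (nat_lit 217) (T.n (nat_lit 216) (T.l (nat_lit 12647014196878)) (T.l (nat_lit 55543312263527771879373857552446301741068392531928931888852730638))) (T.n (nat_lit 218) (T.l (nat_lit 16809599464091912744199228701205811968715531051595)) (T.l (nat_lit 2653992871145951787810902148333374329070977026)))) (T.n (nat_lit 221) (T.n (nat_lit 220) (T.l (nat_lit 7255347381225482271)) (T.l (nat_lit 116380501778))) (T.n (nat_lit 222) (T.l (nat_lit 161079773279)) (T.l (nat_lit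 921545382831696))))))) (T.n (nat_lit 239) (T.n (nat_lit 231) (T.n (nat_lit 227) (T.n (nat_lit 225) (T.n (nat_lit 224) (T.l (nat_lit 116501087957)) (T.l (nat_lit 71936620916508427690346644))) (T.n (nat_lit 226) (T.l (nat_lit 77935077755841252)) (T.l (nat_lit 1244516430552088922)))) (T.n (nat_lit 229) (T.n (nat_lit 228) (T.l (nat_lit 7274428419765150389)) (T.l (nat_lit 198657018561756))) (T.n (nat_lit 230) (T.l (nat_lit 307618136837891151870098816062406708127461)) (T.l (nat_lit 559601548675991623684487578448))))) (T.n (nat_lit 235) (T.n (nat_lit 233) (T.n (nat_lit 232) (T.l (nat_lit 165102471627)) (T.l (nat_lit 903801715681495))) (T.n (nat_lit 234) (T.l (nat_lit 15287993)) (T.l (nat_lit 230227711055107411761675131012481041690856395361337702272424111652214073186329980659779174718)))) (T.n (nat_lit 237) (T.n (nat_lit 236) (T.l (nat_lit 104048573479778945218478482)) (T.l (nat_lit 488173095624678471235528658))) (T.n (nat_lit 238) (T.l (nat_lit 138851313248)) (T.l (nat_lit 147524148498285901815739043184157484497735614292198)))))) (T.n (nat_lit 247)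 (T.n (nat_lit 243) (T.n (nat_lit 241) (T.n (nat_lit 240) (T.l (nat_lit 664389700205030104477281046110039157516282128160558723665482154187)) (T.l (nat_lit 1270098))) (T.n (nat_lit 242) (T.l (nat_lit 5179025)) (T.l (nat_lit 14223013)))) (T.n (nat_lit 245) (T.n (nat_lit 244) (T.l (nat_lit 116581408829)) (T.l (nat_lit 6709678628903))) (T.n (nat_lit 246) (T.l (nat_lit 1346582910498275367)) (T.l (nat_lit 54055948296546136))))) (T.n (nat_lit 251) (T.n (nat_lit 249) (T.n (nat_lit 248) (T.l (nat_lit 450125788230006794384)) (T.l (nat_lit 149043971794774))) (T.n (nat_lit 250) (T.l (nat_lit 91653108412418124906765)) (T.l (nat_lit 7944356342449210988)))) (T.n (nat_lit 253) (T.n (nat_lit 252) (T.l (nat_lit 75152090287479991304762)) (T.l (nat_lit 1224213238930513276297609585331224290015471716168368278))) (T.n (nat_lit 254) (T.l (nat_lit 887876860084445)) (T.l (nat_lit 525888081809771602185510981)))))))))) (T.n (nat_lit 383) (T.n (nat_lit 319) (T.n (nat_lit 287) (T.n (nat_lit 271) (T.n (nat_lit 263) (T.n (nat_lit 259) (T.n (nat_lit 257) (T.n (nat_lit 256)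 (T.l (nat_lit 488167995974617314670085728)) (T.l (nat_lit 59924420148223054897663))) (T.n (nat_lit 258) (T.l (nat_lit 407246049205674059440489791929732359643405)) (T.l (nat_lit 7274273384478476562)))) (T.n (nat_lit 261) (T.n (nat_lit 260) (T.l (nat_lit 269866039265625175040725839517107601714)) (T.l (nat_lit 69287192243999540560768))) (T.n (nat_lit 262) (T.l (nat_lit 295922323793305698633039981648718153766)) (T.l (nat_lit 2424195674486425240900212346088972584568923))))) (T.n (nat_lit 267) (T.n (nat_lit 265) (T.n (nat_lit 264) (T.l (nat_lit 11003518543371016355553573820533580119895176580568072791631)) (T.l (nat_lit 60661159916606673961220))) (T.n (nat_lit 266) (T.l (nat_lit 1371295376180075950740912841313109096126394140643)) (T.l (nat_lit 109468369003)))) (T.n (nat_lit 269) (T.n (nat_lit 268) (T.l (nat_lit 13363158)) (T.l (nat_lit 336291432))) (T.n (nat_lit 270) (T.l (nat_lit 2271669561327511670453271213596689)) (T.l (nat_lit 61907431634575905326671)))))) (T.n (nat_lit 279) (T.n (nat_lit 275) (T.n (nat_lit 273) (T.n (nat_lit 272) (T.l (nat_lit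 740298784246072672461789382587)) (T.l (nat_lit 60173436820379991795285))) (T.n (nat_lit 274) (T.l (nat_lit 4028810135926232879101142783603792949818138854)) (T.l (nat_lit 204192520317174384854208600120347547492613)))) (T.n (nat_lit 277) (T.n (nat_lit 276) (T.l (nat_lit 268707432)) (T.l (nat_lit 1316783367219162))) (T.n (nat_lit 278) (T.l (nat_lit 109469605995)) (T.l (nat_lit 1743217669031261374485))))) (T.n (nat_lit 283) (T.n (nat_lit 281) (T.n (nat_lit 280) (T.l (nat_lit 193663139232401230)) (T.l (nat_lit 51251793525592737358542728895370194805481929312769919117693252788715))) (T.n (nat_lit 282) (T.l (nat_lit 108461656190)) (T.l (nat_lit 603509446355239561162281338361324814187598628316981385269432798259118)))) (T.n (nat_lit 285) (T.n (nat_lit 284) (T.l (nat_lit 419267427902710753099225232062905863316267)) (T.l (nat_lit 86659489117769618322902058997))) (T.n (nat_lit 286) (T.l (nat_lit 7328362500052258245730124026142950)) (T.l (nat_lit 937374285054080))))))) (T.n (nat_lit 303) (T.n (nat_lit 295) (T.n (nat_lit 291) (T.n (nat_lit 289) (T.n (nat_lit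 288) (T.l (nat_lit 939573306916992)) (T.l (nat_lit 416983100))) (T.n (nat_lit 290) (T.l (nat_lit 27912753489028965)) (T.l (nat_lit 7807572)))) (T.n (nat_lit 293) (T.n (nat_lit 292) (T.l (nat_lit 121618765925057287)) (T.l (nat_lit 119736927835))) (T.n (nat_lit 294) (T.l (nat_lit 60329564048135485546618)) (T.l (nat_lit 2261078706943724098))))) (T.n (nat_lit 299) (T.n (nat_lit 297) (T.n (nat_lit 296) (T.l (nat_lit 180158967155703885)) (T.l (nat_lit 13371250))) (T.n (nat_lit 298) (T.l (nat_lit 4072036)) (T.l (nat_lit 3318239)))) (T.n (nat_lit 301) (T.n (nat_lit 300) (T.l (nat_lit 7250811)) (T.l (nat_lit 6029652))) (T.n (nat_lit 302) (T.l (nat_lit 354000)) (T.l (nat_lit 632671)))))) (T.n (nat_lit 311) (T.n (nat_lit 307) (T.n (nat_lit 305) (T.n (nat_lit 304) (T.l (nat_lit 3254813)) (T.l (nat_lit 13387139))) (T.n (nat_lit 306) (T.l (nat_lit 28266367115)) (T.l (nat_lit 28266137430)))) (T.n (nat_lit 309) (T.n (nat_lit 308) (T.l (nat_lit 127251702181)) (T.l (nat_lit 114710200741))) (T.n (nat_lit 310) (T.l (nat_lit 114424064458)) (T.l (nat_lit 114491173328)))))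 (T.n (nat_lit 315) (T.n (nat_lit 313) (T.n (nat_lit 312) (T.l (nat_lit 111873927402)) (T.l (nat_lit 3244169))) (T.n (nat_lit 314) (T.l (nat_lit 75565137936656301983637)) (T.l (nat_lit 1377957)))) (T.n (nat_lit 317) (T.n (nat_lit 316) (T.l (nat_lit 25107863402375949019789454302694925556886270842342169306696167511184651790053)) (T.l (nat_lit 37099122837944380363754634775415644988776507622362914216737312237509930688686))) (T.n (nat_lit 318) (T.l (nat_lit 123137)) (T.l (nat_lit 163400299349855)))))))) (T.n (nat_lit 351) (T.n (nat_lit 335) (T.n (nat_lit 327) (T.n (nat_lit 323) (T.n (nat_lit 321) (T.n (nat_lit 320) (T.l (nat_lit 63943202937415660)) (T.l (nat_lit 919967))) (T.n (nat_lit 322) (T.l (nat_lit 1343750330550094)) (T.l (nat_lit 75530703476994058446531)))) (T.n (nat_lit 325) (T.n (nat_lit 324) (T.l (nat_lit 14329432)) (T.l (nat_lit 117388412569))) (T.n (nat_lit 326) (T.l (nat_lit 14688282)) (T.l (nat_lit 59443205161299193922395))))) (T.n (nat_lit 331) (T.n (nat_lit 329) (T.n (nat_lit 328) (T.l (nat_lit 23753925110085)) (T.l (nat_lit 1180702)))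 (T.n (nat_lit 330) (T.l (nat_lit 14295731660441)) (T.l (nat_lit 14302711079021)))) (T.n (nat_lit 333) (T.n (nat_lit 332) (T.l (nat_lit 530477160194249271879647272)) (T.l (nat_lit 1745725062))) (T.n (nat_lit 334) (T.l (nat_lit 153385899107956)) (T.l (nat_lit 155033153283700)))))) (T.n (nat_lit 343) (T.n (nat_lit 339) (T.n (nat_lit 337) (T.n (nat_lit 336) (T.l (nat_lit 18924947048)) (T.l (nat_lit 1747140638))) (T.n (nat_lit 338) (T.l (nat_lit 1745322263)) (T.l (nat_lit 959982045610244)))) (T.n (nat_lit 341) (T.n (nat_lit 340) (T.l (nat_lit 7864218543155429532)) (T.l (nat_lit 10466373889264502549))) (T.n (nat_lit 342) (T.l (nat_lit 901601078412984)) (T.l (nat_lit 122957252309))))) (T.n (nat_lit 347) (T.n (nat_lit 345) (T.n (nat_lit 344) (T.l (nat_lit 118101952554762375)) (T.l (nat_lit 1758258792))) (T.n (nat_lit 346) (T.l (nat_lit 25867460454289)) (T.l (nat_lit 2258528217368606326796)))) (T.n (nat_lit 349) (T.n (nat_lit 348) (T.l (nat_lit 13567584)) (T.l (nat_lit 982421706162520))) (T.n (nat_lit 350) (T.l (nat_lit 7458943513738020460)) (T.l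 (nat_lit 910396030551762))))))) (T.n (nat_lit 367) (T.n (nat_lit 359) (T.n (nat_lit 355) (T.n (nat_lit 353) (T.n (nat_lit 352) (T.l (nat_lit 1365747272125090)) (T.l (nat_lit 12701166785165961178248537583739845679586513158539))) (T.n (nat_lit 354) (T.l (nat_lit 52595763568441464972208066)) (T.l (nat_lit 29826717558598689542898615192404699545215766281496318167787236305773097307728838305730)))) (T.n (nat_lit 357) (T.n (nat_lit 356) (T.l (nat_lit 6981884473258305840255562487496532222072479445086922085073122)) (T.l (nat_lit 500495510736327438068312332))) (T.n (nat_lit 358) (T.l (nat_lit 5581441627986214177744647463297551487203192942713908888855549302784332)) (T.l (nat_lit 604869925544196))))) (T.n (nat_lit 363) (T.n (nat_lit 361) (T.n (nat_lit 360) (T.l (nat_lit 1239315594460462378323133987986011138622480451283510934)) (T.l (nat_lit 143094828681606))) (T.n (nat_lit 362) (T.l (nat_lit 3402846772497179543445878374152278855092564)) (T.l (nat_lit 1061741771360120)))) (T.n (nat_lit 365) (T.n (nat_lit 364) (T.l (nat_lit 60323367050468274464504)) (T.l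 (nat_lit 75522362839724584738837))) (T.n (nat_lit 366) (T.l (nat_lit 888520770037388)) (T.l (nat_lit 63058755546155219)))))) (T.n (nat_lit 375) (T.n (nat_lit 371) (T.n (nat_lit 369) (T.n (nat_lit 368) (T.l (nat_lit 63058755613264123)) (T.l (nat_lit 1945874564679410746))) (T.n (nat_lit 370) (T.l (nat_lit 130582406359879756405557341)) (T.l (nat_lit 63464988143505856759048)))) (T.n (nat_lit 373) (T.n (nat_lit 372) (T.l (nat_lit 17156922911122)) (T.l (nat_lit 154632554506))) (T.n (nat_lit 374) (T.l (nat_lit 63058755814590765)) (T.l (nat_lit 1243183823415354244))))) (T.n (nat_lit 379) (T.n (nat_lit 377) (T.n (nat_lit 376) (T.l (nat_lit 1243183824891945860)) (T.l (nat_lit 83429755064147237411301184))) (T.n (nat_lit 378) (T.l (nat_lit 2261078706955764924)) (T.l (nat_lit 1792681252067713615)))) (T.n (nat_lit 381) (T.n (nat_lit 380) (T.l (nat_lit 2261078713060074684)) (T.l (nat_lit 17154305665413))) (T.n (nat_lit 382) (T.l (nat_lit 1792681257170412455)) (T.l (nat_lit 1792681252073350055))))))))) (T.n (nat_lit 447) (T.n (nat_lit 415) (T.n (nat_lit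 399) (T.n (nat_lit 391) (T.n (nat_lit 387) (T.n (nat_lit 385) (T.n (nat_lit 384) (T.l (nat_lit 487197846899462122964435135)) (T.l (nat_lit 17156872618339))) (T.n (nat_lit 386) (T.l (nat_lit 2279845)) (T.l (nat_lit 157232256444510)))) (T.n (nat_lit 389) (T.n (nat_lit 388) (T.l (nat_lit 255689)) (T.l (nat_lit 939534786912611))) (T.n (nat_lit 390) (T.l (nat_lit 108990416683)) (T.l (nat_lit 17151433294179))))) (T.n (nat_lit 395) (T.n (nat_lit 393) (T.n (nat_lit 392) (T.l (nat_lit 17418225)) (T.l (nat_lit 8751649))) (T.n (nat_lit 394) (T.l (nat_lit 14860586)) (T.l (nat_lit 469606691610663)))) (T.n (nat_lit 397) (T.n (nat_lit 396) (T.l (nat_lit 108923307764)) (T.l (nat_lit 139705705626214485))) (T.n (nat_lit 398) (T.l (nat_lit 1064985929885805)) (T.l (nat_lit 31587884248295339643355605320612184316304546405895963718457846436262982707254279288539226140)))))) (T.n (nat_lit 407) (T.n (nat_lit 403) (T.n (nat_lit 401) (T.n (nat_lit 400) (T.l (nat_lit 114493344331)) (T.l (nat_lit 7260636))) (T.n (nat_lit 402) (T.l (nat_lit 539496135150694785551688109))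 (T.l (nat_lit 163295529262)))) (T.n (nat_lit 405) (T.n (nat_lit 404) (T.l (nat_lit 115374344056)) (T.l (nat_lit 885657966020214))) (T.n (nat_lit 406) (T.l (nat_lit 2261078713050630533)) (T.l (nat_lit 2261078709829405074))))) (T.n (nat_lit 411) (T.n (nat_lit 409) (T.n (nat_lit 408) (T.l (nat_lit 66334915344196358348916)) (T.l (nat_lit 2261078711383778492))) (T.n (nat_lit 410) (T.l (nat_lit 66342234265227483799581)) (T.l (nat_lit 985536893768163031235733570134)))) (T.n (nat_lit 413) (T.n (nat_lit 412) (T.l (nat_lit 683369082812372285843899039709814347680237)) (T.l (nat_lit 683369081369230645307738991651255401638381))) (T.n (nat_lit 414) (T.l (nat_lit 63058753009426723)) (T.l (nat_lit 1945874567899325498))))))) (T.n (nat_lit 431) (T.n (nat_lit 423) (T.n (nat_lit 419) (T.n (nat_lit 417) (T.n (nat_lit 416) (T.l (nat_lit 60328113230414036156437)) (T.l (nat_lit 87363982618270800290350))) (T.n (nat_lit 418) (T.l (nat_lit 494209044971640162917318778)) (T.l (nat_lit 109736191200)))) (T.n (nat_lit 421) (T.n (nat_lit 420) (T.l (nat_lit 62025208983673395478760))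 (T.l (nat_lit 60328396673607426196014))) (T.n (nat_lit 422) (T.l (nat_lit 76784923693383643195432363839)) (T.l (nat_lit 59435715652467080937639))))) (T.n (nat_lit 427) (T.n (nat_lit 425) (T.n (nat_lit 424) (T.l (nat_lit 76784923699356225009901109491)) (T.l (nat_lit 61501507800510449025094))) (T.n (nat_lit 426) (T.l (nat_lit 61501507800510449057887)) (T.l (nat_lit 62017976988285514719323)))) (T.n (nat_lit 429) (T.n (nat_lit 428) (T.l (nat_lit 76784923699432047872929235589)) (T.l (nat_lit 76784923699432047983714035343))) (T.n (nat_lit 430) (T.l (nat_lit 76784923699356225009914634483)) (T.l (nat_lit 76784923949399564059715035648)))))) (T.n (nat_lit 439) (T.n (nat_lit 435) (T.n (nat_lit 433) (T.n (nat_lit 432) (T.l (nat_lit 90966558283776936)) (T.l (nat_lit 32695294453098891022990167131702902))) (T.n (nat_lit 434) (T.l (nat_lit 62025209769287070056605)) (T.l (nat_lit 653124338545992473)))) (T.n (nat_lit 437) (T.n (nat_lit 436) (T.l (nat_lit 17154319884643)) (T.l (nat_lit 62025281852697899688245))) (T.n (nat_lit 438) (T.l (nat_lit 62017958973866265108561))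 (T.l (nat_lit 62025353884454407463237))))) (T.n (nat_lit 443) (T.n (nat_lit 441) (T.n (nat_lit 440) (T.l (nat_lit 62025209769266331885579)) (T.l (nat_lit 513466555172594603))) (T.n (nat_lit 442) (T.l (nat_lit 1022445331077702646)) (T.l (nat_lit 685772059039664900887458373683797906387013355581806758954752008561)))) (T.n (nat_lit 445) (T.n (nat_lit 444) (T.l (nat_lit 8448802403401384520)) (T.l (nat_lit 515306217093784672241010560))) (T.n (nat_lit 446) (T.l (nat_lit 58035133801536095148354012142265443236504905507356708021700730523276938971496892)) (T.l (nat_lit 60322006962934808002968)))))))) (T.n (nat_lit 479) (T.n (nat_lit 463) (T.n (nat_lit 455) (T.n (nat_lit 451) (T.n (nat_lit 449) (T.n (nat_lit 448) (T.l (nat_lit 277795136747835934397192478729)) (T.l (nat_lit 715763812229818522723402445))) (T.n (nat_lit 450) (T.l (nat_lit 35742673925527665838903672123539643)) (T.l (nat_lit 4139326099111509018311)))) (T.n (nat_lit 453) (T.n (nat_lit 452) (T.l (nat_lit 543730327975424992338076650)) (T.l (nat_lit 931014338192414666025732204564))) (T.n (nat_lit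 454) (T.l (nat_lit 1693567427118188868)) (T.l (nat_lit 76784923692807107222681821553))))) (T.n (nat_lit 459) (T.n (nat_lit 457) (T.n (nat_lit 456) (T.l (nat_lit 60625751342601988989645)) (T.l (nat_lit 4162441306995519126900051181649))) (T.n (nat_lit 458) (T.l (nat_lit 508111691717486580095606875)) (T.l (nat_lit 62025209769266935586891)))) (T.n (nat_lit 461) (T.n (nat_lit 460) (T.l (nat_lit 76784923699431977494991143281)) (T.l (nat_lit 513466566783820715))) (T.n (nat_lit 462) (T.l (nat_lit 846767024057239877)) (T.l (nat_lit 10016134456935)))))) (T.n (nat_lit 471) (T.n (nat_lit 467) (T.n (nat_lit 465) (T.n (nat_lit 464) (T.l (nat_lit 7484992596836548816)) (T.l (nat_lit 93147911655253713938530629))) (T.n (nat_lit 466) (T.l (nat_lit 93148612631528588588287615)) (T.l (nat_lit 532591259031601765975646487)))) (T.n (nat_lit 469) (T.n (nat_lit 468) (T.l (nat_lit 292795141035976293523858460080740294692)) (T.l (nat_lit 35741594365650417953476712055832644))) (T.n (nat_lit 470) (T.l (nat_lit 279336707586085950661729294116065771588)) (T.l (nat_lit 60328109327809854948958)))))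 (T.n (nat_lit 475) (T.n (nat_lit 473) (T.n (nat_lit 472) (T.l (nat_lit 7364293163913782015)) (T.l (nat_lit 35741594364743723588745404108038180))) (T.n (nat_lit 474) (T.l (nat_lit 7364271051809645311)) (T.l (nat_lit 35741674079196641546791170990466666)))) (T.n (nat_lit 477) (T.n (nat_lit 476) (T.l (nat_lit 508110511440229424630333485)) (T.l (nat_lit 279336711562349297447674768559654078055))) (T.n (nat_lit 478) (T.l (nat_lit 496625678945150435740000347)) (T.l (nat_lit 508111698944875569664270618))))))) (T.n (nat_lit 495) (T.n (nat_lit 487) (T.n (nat_lit 483) (T.n (nat_lit 481) (T.n (nat_lit 480) (T.l (nat_lit 279336711562349297447675572865026056228)) (T.l (nat_lit 3986172366813583824384402245223))) (T.n (nat_lit 482) (T.l (nat_lit 292795145019671570660825754131351789604)) (T.l (nat_lit 292795145019671570661200405475065964196)))) (T.n (nat_lit 485) (T.n (nat_lit 484) (T.l (nat_lit 279336711562345371537927423542401255107)) (T.l (nat_lit 487265845124796908434702357))) (T.n (nat_lit 486) (T.l (nat_lit 3991605338807679810799448680074)) (T.l (nat_lit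 62025209769266331607115))))) (T.n (nat_lit 491) (T.n (nat_lit 489) (T.n (nat_lit 488) (T.l (nat_lit 76784923699355416301056696689)) (T.l (nat_lit 62025209769293244072134))) (T.n (nat_lit 490) (T.l (nat_lit 8098425446526828973)) (T.l (nat_lit 70483167135768)))) (T.n (nat_lit 493) (T.n (nat_lit 492) (T.l (nat_lit 2225714352970884019219292787576874874806293)) (T.l (nat_lit 2225714352970884019219300033866943567265813))) (T.n (nat_lit 494) (T.l (nat_lit 279336707579155178937757015661628130992)) (T.l (nat_lit 604161093342011490475173869)))))) (T.n (nat_lit 503) (T.n (nat_lit 499) (T.n (nat_lit 497) (T.n (nat_lit 496) (T.l (nat_lit 913814704816548)) (T.l (nat_lit 279336708130777394110031267708407824393))) (T.n (nat_lit 498) (T.l (nat_lit 34098719186908591178919919608004638)) (T.l (nat_lit 34098719187815285543632650398703649)))) (T.n (nat_lit 501) (T.n (nat_lit 500) (T.l (nat_lit 361786088106597785256024)) (T.l (nat_lit 487197149462499799929847850))) (T.n (nat_lit 502) (T.l (nat_lit 487197149462494428724166698)) (T.l (nat_lit 32699230453453306306325642673448557)))))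 (T.n (nat_lit 507) (T.n (nat_lit 505) (T.n (nat_lit 504) (T.l (nat_lit 885766354427953)) (T.l (nat_lit 2531451742142765956349699272967728684289894875))) (T.n (nat_lit 506) (T.l (nat_lit 60328109314483375120420)) (T.l (nat_lit 7507502778189137805)))) (T.n (nat_lit 509) (T.n (nat_lit 508) (T.l (nat_lit 2225714352970884019219300173466519877697545)) (T.l (nat_lit 7507508276419791047))) (T.n (nat_lit 510) (T.l (nat_lit 60328109314591353282602)) (T.l (nat_lit 113649211204963230278551645)))))))))))
def h1 : T := (T.n (nat_lit 767) (T.n (nat_lit 639) (T.n (nat_lit 575) (T.n (nat_lit 543) (T.n (nat_lit 527) (T.n (nat_lit 519) (T.n (nat_lit 515) (T.n (nat_lit 513) (T.n (nat_lit 512) (T.l (nat_lit 153567605928891044416641647821019048274010666411787)) (T.l (nat_lit 113651800550304106827555723))) (T.n (nat_lit 514) (T.l (nat_lit 513466555162265799)) (T.l (nat_lit 653124326196454169)))) (T.n (nat_lit 517) (T.n (nat_lit 516) (T.l (nat_lit 279336708130777393113906036595314499620)) (T.l (nat_lit 18745969119635751195173518685768340919709222893))) (T.n (nat_lit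 518) (T.l (nat_lit 56823719838993821490217648)) (T.l (nat_lit 61501507800510439090382))))) (T.n (nat_lit 523) (T.n (nat_lit 521) (T.n (nat_lit 520) (T.l (nat_lit 486895169003087986198708312)) (T.l (nat_lit 22381853206212376061519956961808687057534003823218))) (T.n (nat_lit 522) (T.l (nat_lit 22381853206212359691382726631787750724175189010030)) (T.l (nat_lit 3988653992388117112873984860293)))) (T.n (nat_lit 525) (T.n (nat_lit 524) (T.l (nat_lit 19649149300807169786946053575029079870620690023)) (T.l (nat_lit 3988645527075744751479849656399))) (T.n (nat_lit 526) (T.l (nat_lit 18745969120266679549711196853464348064541442078)) (T.l (nat_lit 153569378545225147993502112993773718363368941871113)))))) (T.n (nat_lit 535) (T.n (nat_lit 531) (T.n (nat_lit 529) (T.n (nat_lit 528) (T.l (nat_lit 532591266213965744094504551)) (T.l (nat_lit 1103510677203200389))) (T.n (nat_lit 530) (T.l (nat_lit 48362383178125809292714732)) (T.l (nat_lit 1022445342744529298)))) (T.n (nat_lit 533) (T.n (nat_lit 532) (T.l (nat_lit 1061699622201102)) (T.l (nat_lit 271693646620221007417584338430908278378)))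 (T.n (nat_lit 534) (T.l (nat_lit 279336708068878334594905750640049979422)) (T.l (nat_lit 60203465869004157539827757))))) (T.n (nat_lit 539) (T.n (nat_lit 537) (T.n (nat_lit 536) (T.l (nat_lit 292795141526200607808114433090734868077)) (T.l (nat_lit 494207871504424830506377225))) (T.n (nat_lit 538) (T.l (nat_lit 4162441312891200311795564748879)) (T.l (nat_lit 62025209769269821546653)))) (T.n (nat_lit 541) (T.n (nat_lit 540) (T.l (nat_lit 62025209769287071736103)) (T.l (nat_lit 43830423884941733987639931))) (T.n (nat_lit 542) (T.l (nat_lit 4048567815673283462761591940699)) (T.l (nat_lit 4048550830678928516741890875396))))))) (T.n (nat_lit 559) (T.n (nat_lit 551) (T.n (nat_lit 547) (T.n (nat_lit 545) (T.n (nat_lit 544) (T.l (nat_lit 649404003507619405)) (T.l (nat_lit 43580802705272350207198797))) (T.n (nat_lit 546) (T.l (nat_lit 5319917701737765439050)) (T.l (nat_lit 33165867559906116946203856192217125)))) (T.n (nat_lit 549) (T.n (nat_lit 548) (T.l (nat_lit 62903590953831141206202)) (T.l (nat_lit 720665689699535173))) (T.n (nat_lit 550) (T.l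 (nat_lit 18745969120266837827773402915085311904407864947)) (T.l (nat_lit 4362987593610758853478995902465))))) (T.n (nat_lit 555) (T.n (nat_lit 553) (T.n (nat_lit 552) (T.l (nat_lit 1103510677210333770)) (T.l (nat_lit 17156851542017))) (T.n (nat_lit 554) (T.l (nat_lit 17157119977449)) (T.l (nat_lit 17154301405162)))) (T.n (nat_lit 557) (T.n (nat_lit 556) (T.l (nat_lit 93480256860415345253412482380156159189302219959578386681344222802)) (T.l (nat_lit 720665688290249069))) (T.n (nat_lit 558) (T.l (nat_lit 12315066817424294477006483164843657076122188966643854341686894)) (T.l (nat_lit 404195341733651635410553551570739515492340663411654383951096856865636488380494)))))) (T.n (nat_lit 567) (T.n (nat_lit 563) (T.n (nat_lit 561) (T.n (nat_lit 560) (T.l (nat_lit 13635647084564330189774190500749951239400190231406723566346465974502436645609638839073866583097352)) (T.l (nat_lit 61509876484212387004533))) (T.n (nat_lit 562) (T.l (nat_lit 6770279633618642238477631817533113147175616796392160850501134296822579584)) (T.l (nat_lit 89621534392239209808080))))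 (T.n (nat_lit 565) (T.n (nat_lit 564) (T.l (nat_lit 629003211008719948281602327)) (T.l (nat_lit 13394166))) (T.n (nat_lit 566) (T.l (nat_lit 4048560509980634225194704168586)) (T.l (nat_lit 277785766237996419275197146708))))) (T.n (nat_lit 571) (T.n (nat_lit 569) (T.n (nat_lit 568) (T.l (nat_lit 33166261203976736886640682977681499)) (T.l (nat_lit 3991196062815648020575840026666))) (T.n (nat_lit 570) (T.l (nat_lit 17154303051755)) (T.l (nat_lit 17156918650768)))) (T.n (nat_lit 573) (T.n (nat_lit 572) (T.l (nat_lit 1103510677210612558)) (T.l (nat_lit 1801664827655424024))) (T.n (nat_lit 574) (T.l (nat_lit 532591303225424337656250647)) (T.l (nat_lit 720665676210653371)))))))) (T.n (nat_lit 607) (T.n (nat_lit 591) (T.n (nat_lit 583) (T.n (nat_lit 579) (T.n (nat_lit 577) (T.n (nat_lit 576) (T.l (nat_lit 12315068124680146758186922320981597508219817898900832203761262)) (T.l (nat_lit 13313631))) (T.n (nat_lit 578) (T.l (nat_lit 849090662645278621743)) (T.l (nat_lit 7318415365577475891)))) (T.n (nat_lit 581) (T.n (nat_lit 580) (T.l (nat_lit 20049081888936219336107496153771656547075227889))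 (T.l (nat_lit 994628341941900))) (T.n (nat_lit 582) (T.l (nat_lit 82613031852232359716489)) (T.l (nat_lit 2195028626090921469837143608254644))))) (T.n (nat_lit 587) (T.n (nat_lit 585) (T.n (nat_lit 584) (T.l (nat_lit 418793485)) (T.l (nat_lit 3949161519578998483724))) (T.n (nat_lit 586) (T.l (nat_lit 14960794600377)) (T.l (nat_lit 122558829360621725)))) (T.n (nat_lit 589) (T.n (nat_lit 588) (T.l (nat_lit 7877002458287007432)) (T.l (nat_lit 151551748580))) (T.n (nat_lit 590) (T.l (nat_lit 68772399390245087)) (T.l (nat_lit 720520231559961081515532304)))))) (T.n (nat_lit 599) (T.n (nat_lit 595) (T.n (nat_lit 593) (T.n (nat_lit 592) (T.l (nat_lit 892805541584974)) (T.l (nat_lit 13436505))) (T.n (nat_lit 594) (T.l (nat_lit 1745462888)) (T.l (nat_lit 288002289573289722353893413888027)))) (T.n (nat_lit 597) (T.n (nat_lit 596) (T.l (nat_lit 13459798319008493016025107074598487718051917466206725058445736)) (T.l (nat_lit 4133931562408878966424))) (T.n (nat_lit 598) (T.l (nat_lit 4048550889158885858253023953215)) (T.l (nat_lit 1223608083344182363190398648992167048658771276482274964)))))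 (T.n (nat_lit 603) (T.n (nat_lit 601) (T.n (nat_lit 600) (T.l (nat_lit 14246034)) (T.l (nat_lit 64748230326363382399157))) (T.n (nat_lit 602) (T.l (nat_lit 33007393705858062282425968)) (T.l (nat_lit 11623196272)))) (T.n (nat_lit 605) (T.n (nat_lit 604) (T.l (nat_lit 14617561259669181830607731506828380668528482959429)) (T.l (nat_lit 35596572255087260970959339997217131))) (T.n (nat_lit 606) (T.l (nat_lit 1291327016320371902395)) (T.l (nat_lit 1291484851243857249888))))))) (T.n (nat_lit 623) (T.n (nat_lit 615) (T.n (nat_lit 611) (T.n (nat_lit 609) (T.n (nat_lit 608) (T.l (nat_lit 10645322280173492466106589)) (T.l (nat_lit 1038689225120037652135923314597860824926983648184278835623985644783429510591519346945493323419083973994412))) (T.n (nat_lit 610) (T.l (nat_lit 31804693879559593969268746314537751081980595532971608769227141952421665217851393749746583172)) (T.l (nat_lit 23639450059016522121259328589415331875341598682826774910838240881105880792607674567271648443130125168863294571906407758513701394553631650677181)))) (T.n (nat_lit 613) (T.n (nat_lit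 612) (T.l (nat_lit 315021693060811)) (T.l (nat_lit 9242526204799649618))) (T.n (nat_lit 614) (T.l (nat_lit 4051090543870768657057453457414)) (T.l (nat_lit 204795807670875302461037832678715389550150405333579))))) (T.n (nat_lit 619) (T.n (nat_lit 617) (T.n (nat_lit 616) (T.l (nat_lit 60365583909939722338316)) (T.l (nat_lit 40529103083753149265441811305085451106694511358229210225001653962103452672029))) (T.n (nat_lit 618) (T.l (nat_lit 213200)) (T.l (nat_lit 892367653224597)))) (T.n (nat_lit 621) (T.n (nat_lit 620) (T.l (nat_lit 892254693148517)) (T.l (nat_lit 5435827816))) (T.n (nat_lit 622) (T.l (nat_lit 68623055340994340529752)) (T.l (nat_lit 1744945167)))))) (T.n (nat_lit 631) (T.n (nat_lit 627) (T.n (nat_lit 625) (T.n (nat_lit 624) (T.l (nat_lit 562165160443174270695948397)) (T.l (nat_lit 7918975968280379815978643))) (T.n (nat_lit 626) (T.l (nat_lit 140504418398939060)) (T.l (nat_lit 7309350451561432738)))) (T.n (nat_lit 629) (T.n (nat_lit 628) (T.l (nat_lit 14404528300121)) (T.l (nat_lit 116044761716))) (T.n (nat_lit 630) (T.l (nat_lit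 108466800504)) (T.l (nat_lit 60617861903580908562072))))) (T.n (nat_lit 635) (T.n (nat_lit 633) (T.n (nat_lit 632) (T.l (nat_lit 886315091787894)) (T.l (nat_lit 109323781784))) (T.n (nat_lit 634) (T.l (nat_lit 886315700174949)) (T.l (nat_lit 7702081154017280187)))) (T.n (nat_lit 637) (T.n (nat_lit 636) (T.l (nat_lit 11666140341898)) (T.l (nat_lit 887319177412810))) (T.n (nat_lit 638) (T.l (nat_lit 59557033703356176581430)) (T.l (nat_lit 9218916824671332115))))))))) (T.n (nat_lit 703) (T.n (nat_lit 671) (T.n (nat_lit 655) (T.n (nat_lit 647) (T.n (nat_lit 643) (T.n (nat_lit 641) (T.n (nat_lit 640) (T.l (nat_lit 49070479993310389749906745572473897657932)) (T.l (nat_lit 100707202764752207399184078))) (T.n (nat_lit 642) (T.l (nat_lit 1311171442132617)) (T.l (nat_lit 7256193453141557336)))) (T.n (nat_lit 645) (T.n (nat_lit 644) (T.l (nat_lit 994624647824976)) (T.l (nat_lit 486895169016652661137276929))) (T.n (nat_lit 646) (T.l (nat_lit 486902223310937710253876842)) (T.l (nat_lit 7336477047116441182))))) (T.n (nat_lit 651) (T.n (nat_lit 649) (T.n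 (nat_lit 648) (T.l (nat_lit 405990984110004512476)) (T.l (nat_lit 987472978960444))) (T.n (nat_lit 650) (T.l (nat_lit 521722850925015218823022669)) (T.l (nat_lit 895552492355637)))) (T.n (nat_lit 653) (T.n (nat_lit 652) (T.l (nat_lit 7544443730165383355)) (T.l (nat_lit 903356916287167))) (T.n (nat_lit 654) (T.l (nat_lit 59435445482667974575780)) (T.l (nat_lit 3988669403093997837532473361994)))))) (T.n (nat_lit 663) (T.n (nat_lit 659) (T.n (nat_lit 657) (T.n (nat_lit 656) (T.l (nat_lit 110745486064)) (T.l (nat_lit 112753019458))) (T.n (nat_lit 658) (T.l (nat_lit 21775350)) (T.l (nat_lit 6660023561)))) (T.n (nat_lit 661) (T.n (nat_lit 660) (T.l (nat_lit 5941004702919872544925)) (T.l (nat_lit 30512005478457920186051))) (T.n (nat_lit 662) (T.l (nat_lit 955530312646778)) (T.l (nat_lit 75984161653563))))) (T.n (nat_lit 667) (T.n (nat_lit 665) (T.n (nat_lit 664) (T.l (nat_lit 114639864997)) (T.l (nat_lit 130742060115))) (T.n (nat_lit 666) (T.l (nat_lit 7260698709218410821)) (T.l (nat_lit 60143785130876407464641)))) (T.n (nat_lit 669) (T.n (nat_lit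 668) (T.l (nat_lit 115848455044)) (T.l (nat_lit 67649))) (T.n (nat_lit 670) (T.l (nat_lit 886756665419456)) (T.l (nat_lit 1556786305448926052405))))))) (T.n (nat_lit 687) (T.n (nat_lit 679) (T.n (nat_lit 675) (T.n (nat_lit 673) (T.n (nat_lit 672) (T.l (nat_lit 886769495672394)) (T.l (nat_lit 886781496516661))) (T.n (nat_lit 674) (T.l (nat_lit 59509385570469850196106)) (T.l (nat_lit 32715695568922531898954800218234940)))) (T.n (nat_lit 677) (T.n (nat_lit 676) (T.l (nat_lit 3994106851567179338382146881151)) (T.l (nat_lit 15958094))) (T.n (nat_lit 678) (T.l (nat_lit 13598723)) (T.l (nat_lit 19809762083980017167949022797))))) (T.n (nat_lit 683) (T.n (nat_lit 681) (T.n (nat_lit 680) (T.l (nat_lit 19809820147088578498202468363)) (T.l (nat_lit 20303669709454741340509159460))) (T.n (nat_lit 682) (T.l (nat_lit 2477331608192403075252228)) (T.l (nat_lit 928637187866838725)))) (T.n (nat_lit 685) (T.n (nat_lit 684) (T.l (nat_lit 5315203038721312350)) (T.l (nat_lit 109327573067))) (T.n (nat_lit 686) (T.l (nat_lit 525281515583020094057644077)) (T.l (nat_lit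 927561419595925)))))) (T.n (nat_lit 695) (T.n (nat_lit 691) (T.n (nat_lit 689) (T.n (nat_lit 688) (T.l (nat_lit 166247922356289109002315442456141)) (T.l (nat_lit 4214451109402252254278191046657))) (T.n (nat_lit 690) (T.l (nat_lit 4214451109397587405772901410419)) (T.l (nat_lit 19185884)))) (T.n (nat_lit 693) (T.n (nat_lit 692) (T.l (nat_lit 1061722309789324)) (T.l (nat_lit 19448028))) (T.n (nat_lit 694) (T.l (nat_lit 7399416389008705098)) (T.l (nat_lit 602555269760841))))) (T.n (nat_lit 699) (T.n (nat_lit 697) (T.n (nat_lit 696) (T.l (nat_lit 2774880339698441020275)) (T.l (nat_lit 20293986083406159063552655420))) (T.n (nat_lit 698) (T.l (nat_lit 339296694527703737947)) (T.l (nat_lit 7255301200933955150)))) (T.n (nat_lit 701) (T.n (nat_lit 700) (T.l (nat_lit 5031475214677515430967428261454)) (T.l (nat_lit 302651848838345474049))) (T.n (nat_lit 702) (T.l (nat_lit 302592375704966514251)) (T.l (nat_lit 132100013332580458055409825)))))))) (T.n (nat_lit 735) (T.n (nat_lit 719) (T.n (nat_lit 711) (T.n (nat_lit 707) (T.n (nat_lit 705) (T.n (nat_lit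 704) (T.l (nat_lit 132100012337338161504764329)) (T.l (nat_lit 1057224521950919))) (T.n (nat_lit 706) (T.l (nat_lit 356841675350483105)) (T.l (nat_lit 23889020675823068223349156)))) (T.n (nat_lit 709) (T.n (nat_lit 708) (T.l (nat_lit 40810984056554)) (T.l (nat_lit 430100500559839267550618312065319))) (T.n (nat_lit 710) (T.l (nat_lit 20551893992424662164768516)) (T.l (nat_lit 453526777219431741114741101829504438779908))))) (T.n (nat_lit 715) (T.n (nat_lit 713) (T.n (nat_lit 712) (T.l (nat_lit 483071960912234236856309204872)) (T.l (nat_lit 3523379235118334664849322770086600999))) (T.n (nat_lit 714) (T.l (nat_lit 6182609823057781069912434197436498053)) (T.l (nat_lit 33040047834480700487978155433443332)))) (T.n (nat_lit 717) (T.n (nat_lit 716) (T.l (nat_lit 8346090412499551828)) (T.l (nat_lit 496569052112058282841530490))) (T.n (nat_lit 718) (T.l (nat_lit 13367871244)) (T.l (nat_lit 4068358173804707819417390178433)))))) (T.n (nat_lit 727) (T.n (nat_lit 723) (T.n (nat_lit 721) (T.n (nat_lit 720) (T.l (nat_lit 12729298278985737830474)) (T.l (nat_lit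 60616928803587762143333))) (T.n (nat_lit 722) (T.l (nat_lit 5862946288133646010238640809692)) (T.l (nat_lit 35747965675102)))) (T.n (nat_lit 725) (T.n (nat_lit 724) (T.l (nat_lit 2419216738877101133964929)) (T.l (nat_lit 156171026549))) (T.n (nat_lit 726) (T.l (nat_lit 33283454466222979787175084436416146)) (T.l (nat_lit 302592375704966153803))))) (T.n (nat_lit 731) (T.n (nat_lit 729) (T.n (nat_lit 728) (T.l (nat_lit 20603977)) (T.l (nat_lit 20603894))) (T.n (nat_lit 730) (T.l (nat_lit 2720378409601028429095010)) (T.l (nat_lit 108132705654)))) (T.n (nat_lit 733) (T.n (nat_lit 732) (T.l (nat_lit 59436287923695602999371)) (T.l (nat_lit 487201754793994137054601377))) (T.n (nat_lit 734) (T.l (nat_lit 487197143107975709666541974)) (T.l (nat_lit 487197142765748316468715599))))))) (T.n (nat_lit 751) (T.n (nat_lit 743) (T.n (nat_lit 739) (T.n (nat_lit 737) (T.n (nat_lit 736) (T.l (nat_lit 16941126)) (T.l (nat_lit 16932942))) (T.n (nat_lit 738) (T.l (nat_lit 16867398)) (T.l (nat_lit 780160)))) (T.n (nat_lit 741) (T.n (nat_lit 740) (T.l (nat_lit 2746313))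 (T.l (nat_lit 13878952))) (T.n (nat_lit 742) (T.l (nat_lit 13756263)) (T.l (nat_lit 114642805931))))) (T.n (nat_lit 747) (T.n (nat_lit 745) (T.n (nat_lit 744) (T.l (nat_lit 114643469459)) (T.l (nat_lit 14173885))) (T.n (nat_lit 746) (T.l (nat_lit 14173798)) (T.l (nat_lit 117240349680)))) (T.n (nat_lit 749) (T.n (nat_lit 748) (T.l (nat_lit 1016052)) (T.l (nat_lit 1360295))) (T.n (nat_lit 750) (T.l (nat_lit 112340820839)) (T.l (nat_lit 112340755143)))))) (T.n (nat_lit 759) (T.n (nat_lit 755) (T.n (nat_lit 753) (T.n (nat_lit 752) (T.l (nat_lit 111609176135)) (T.l (nat_lit 111602557639))) (T.n (nat_lit 754) (T.l (nat_lit 16008979)) (T.l (nat_lit 15181758)))) (T.n (nat_lit 757) (T.n (nat_lit 756) (T.l (nat_lit 2429862709)) (T.l (nat_lit 8939365185))) (T.n (nat_lit 758) (T.l (nat_lit 752968141)) (T.l (nat_lit 753148365))))) (T.n (nat_lit 763) (T.n (nat_lit 761) (T.n (nat_lit 760) (T.l (nat_lit 752140749)) (T.l (nat_lit 133078434999))) (T.n (nat_lit 762) (T.l (nat_lit 114642470002)) (T.l (nat_lit 114642576482)))) (T.n (nat_lit 765) (T.n (nat_lit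 764) (T.l (nat_lit 120747279458)) (T.l (nat_lit 81215569))) (T.n (nat_lit 766) (T.l (nat_lit 5315707420)) (T.l (nat_lit 8939586369)))))))))) (T.n (nat_lit 895) (T.n (nat_lit 831) (T.n (nat_lit 799) (T.n (nat_lit 783) (T.n (nat_lit 775) (T.n (nat_lit 771) (T.n (nat_lit 769) (T.n (nat_lit 768) (T.l (nat_lit 5761548)) (T.l (nat_lit 3516675))) (T.n (nat_lit 770) (T.l (nat_lit 952349)) (T.l (nat_lit 5564902)))) (T.n (nat_lit 773) (T.n (nat_lit 772) (T.l (nat_lit 1157047)) (T.l (nat_lit 8496898))) (T.n (nat_lit 774) (T.l (nat_lit 112764519553)) (T.l (nat_lit 112764421151))))) (T.n (nat_lit 779) (T.n (nat_lit 777) (T.n (nat_lit 776) (T.l (nat_lit 112225157923)) (T.l (nat_lit 112227173283))) (T.n (nat_lit 778) (T.l (nat_lit 112226264095)) (T.l (nat_lit 112226624423)))) (T.n (nat_lit 781) (T.n (nat_lit 780) (T.l (nat_lit 112215468614)) (T.l (nat_lit 112228230261))) (T.n (nat_lit 782) (T.l (nat_lit 671828)) (T.l (nat_lit 1113367735305213)))))) (T.n (nat_lit 791) (T.n (nat_lit 787) (T.n (nat_lit 785) (T.n (nat_lit 784) (T.l (nat_lit 2638748)) (T.l (nat_lit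 112407929703))) (T.n (nat_lit 786) (T.l (nat_lit 18432204)) (T.l (nat_lit 1720531)))) (T.n (nat_lit 789) (T.n (nat_lit 788) (T.l (nat_lit 13919017)) (T.l (nat_lit 550013))) (T.n (nat_lit 790) (T.l (nat_lit 5761219)) (T.l (nat_lit 3516532))))) (T.n (nat_lit 795) (T.n (nat_lit 793) (T.n (nat_lit 792) (T.l (nat_lit 952266)) (T.l (nat_lit 1466409))) (T.n (nat_lit 794) (T.l (nat_lit 58618)) (T.l (nat_lit 115848332352)))) (T.n (nat_lit 797) (T.n (nat_lit 796) (T.l (nat_lit 112227288128)) (T.l (nat_lit 110750819392))) (T.n (nat_lit 798) (T.l (nat_lit 120747541618)) (T.l (nat_lit 115848594339))))))) (T.n (nat_lit 815) (T.n (nat_lit 807) (T.n (nat_lit 803) (T.n (nat_lit 801) (T.n (nat_lit 800) (T.l (nat_lit 18695160)) (T.l (nat_lit 2302379))) (T.n (nat_lit 802) (T.l (nat_lit 682917)) (T.l (nat_lit 598120)))) (T.n (nat_lit 805) (T.n (nat_lit 804) (T.l (nat_lit 1155751)) (T.l (nat_lit 239430))) (T.n (nat_lit 806) (T.l (nat_lit 239497)) (T.l (nat_lit 239408))))) (T.n (nat_lit 811) (T.n (nat_lit 809) (T.n (nat_lit 808) (T.l (nat_lit 239482)) (T.l (nat_lit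 282329121))) (T.n (nat_lit 810) (T.l (nat_lit 282378273)) (T.l (nat_lit 283385889)))) (T.n (nat_lit 813) (T.n (nat_lit 812) (T.l (nat_lit 283205665)) (T.l (nat_lit 19645392))) (T.n (nat_lit 814) (T.l (nat_lit 20792272)) (T.l (nat_lit 19334096)))))) (T.n (nat_lit 823) (T.n (nat_lit 819) (T.n (nat_lit 817) (T.n (nat_lit 816) (T.l (nat_lit 16327632)) (T.l (nat_lit 13256668))) (T.n (nat_lit 818) (T.l (nat_lit 18424639)) (T.l (nat_lit 15745630)))) (T.n (nat_lit 821) (T.n (nat_lit 820) (T.l (nat_lit 14401836)) (T.l (nat_lit 992860))) (T.n (nat_lit 822) (T.l (nat_lit 2572576)) (T.l (nat_lit 2990518))))) (T.n (nat_lit 827) (T.n (nat_lit 825) (T.n (nat_lit 824) (T.l (nat_lit 112225715274)) (T.l (nat_lit 112763757642))) (T.n (nat_lit 826) (T.l (nat_lit 115850511434)) (T.l (nat_lit 13336876)))) (T.n (nat_lit 829) (T.n (nat_lit 828) (T.l (nat_lit 952191)) (T.l (nat_lit 952269))) (T.n (nat_lit 830) (T.l (nat_lit 15640566)) (T.l (nat_lit 15640253)))))))) (T.n (nat_lit 863) (T.n (nat_lit 847) (T.n (nat_lit 839) (T.n (nat_lit 835) (T.n (nat_lit 833) (T.n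 (nat_lit 832) (T.l (nat_lit 19645486)) (T.l (nat_lit 20792366))) (T.n (nat_lit 834) (T.l (nat_lit 19334190)) (T.l (nat_lit 13486168)))) (T.n (nat_lit 837) (T.n (nat_lit 836) (T.l (nat_lit 13570114298)) (T.l (nat_lit 13570147066))) (T.n (nat_lit 838) (T.l (nat_lit 13569639162)) (T.l (nat_lit 680712))))) (T.n (nat_lit 843) (T.n (nat_lit 841) (T.n (nat_lit 840) (T.l (nat_lit 113012491248)) (T.l (nat_lit 114757321712))) (T.n (nat_lit 842) (T.l (nat_lit 113012679839)) (T.l (nat_lit 114757510303)))) (T.n (nat_lit 845) (T.n (nat_lit 844) (T.l (nat_lit 19548489)) (T.l (nat_lit 112407864007))) (T.n (nat_lit 846) (T.l (nat_lit 126300603835)) (T.l (nat_lit 6473896)))))) (T.n (nat_lit 855) (T.n (nat_lit 851) (T.n (nat_lit 849) (T.n (nat_lit 848) (T.l (nat_lit 6473923)) (T.l (nat_lit 6473905))) (T.n (nat_lit 850) (T.l (nat_lit 6474252)) (T.l (nat_lit 18604707)))) (T.n (nat_lit 853) (T.n (nat_lit 852) (T.l (nat_lit 17433251)) (T.l (nat_lit 17728163))) (T.n (nat_lit 854) (T.l (nat_lit 18899619)) (T.l (nat_lit 15721036))))) (T.n (nat_lit 859) (T.n (nat_lit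 857) (T.n (nat_lit 856) (T.l (nat_lit 16360012)) (T.l (nat_lit 16335436))) (T.n (nat_lit 858) (T.l (nat_lit 17015372)) (T.l (nat_lit 18122882)))) (T.n (nat_lit 861) (T.n (nat_lit 860) (T.l (nat_lit 18000172)) (T.l (nat_lit 20162796))) (T.n (nat_lit 862) (T.l (nat_lit 21023071)) (T.l (nat_lit 18432922))))))) (T.n (nat_lit 879) (T.n (nat_lit 871) (T.n (nat_lit 867) (T.n (nat_lit 865) (T.n (nat_lit 864) (T.l (nat_lit 6490280)) (T.l (nat_lit 6490307))) (T.n (nat_lit 866) (T.l (nat_lit 6490289)) (T.l (nat_lit 6490636)))) (T.n (nat_lit 869) (T.n (nat_lit 868) (T.l (nat_lit 6523103)) (T.l (nat_lit 6522960))) (T.n (nat_lit 870) (T.l (nat_lit 6522996)) (T.l (nat_lit 18899740))))) (T.n (nat_lit 875) (T.n (nat_lit 873) (T.n (nat_lit 872) (T.l (nat_lit 15721032)) (T.l (nat_lit 16360008))) (T.n (nat_lit 874) (T.l (nat_lit 16335432)) (T.l (nat_lit 17015368)))) (T.n (nat_lit 877) (T.n (nat_lit 876) (T.l (nat_lit 17344488)) (T.l (nat_lit 17967403))) (T.n (nat_lit 878) (T.l (nat_lit 21080421)) (T.l (nat_lit 21203297)))))) (T.n (nat_lit 887) (T.n (nat_lit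 883) (T.n (nat_lit 881) (T.n (nat_lit 880) (T.l (nat_lit 8469840297)) (T.l (nat_lit 8469873065))) (T.n (nat_lit 882) (T.l (nat_lit 8469365161)) (T.l (nat_lit 8470192553)))) (T.n (nat_lit 885) (T.n (nat_lit 884) (T.l (nat_lit 5761192)) (T.l (nat_lit 5761201))) (T.n (nat_lit 886) (T.l (nat_lit 3516639)) (T.l (nat_lit 3516496))))) (T.n (nat_lit 891) (T.n (nat_lit 889) (T.n (nat_lit 888) (T.l (nat_lit 4105986)) (T.l (nat_lit 13558238))) (T.n (nat_lit 890) (T.l (nat_lit 13338193)) (T.l (nat_lit 19990792)))) (T.n (nat_lit 893) (T.n (nat_lit 892) (T.l (nat_lit 18147318)) (T.l (nat_lit 114643453092))) (T.n (nat_lit 894) (T.l (nat_lit 112764961909)) (T.l (nat_lit 14198511))))))))) (T.n (nat_lit 959) (T.n (nat_lit 927) (T.n (nat_lit 911) (T.n (nat_lit 903) (T.n (nat_lit 899) (T.n (nat_lit 897) (T.n (nat_lit 896) (T.l (nat_lit 13223692)) (T.l (nat_lit 15254012))) (T.n (nat_lit 898) (T.l (nat_lit 15254107)) (T.l (nat_lit 13207690)))) (T.n (nat_lit 901) (T.n (nat_lit 900) (T.l (nat_lit 349700187)) (T.l (nat_lit 13665032))) (T.n (nat_lit 902) (T.l (nat_lit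 2269396)) (T.l (nat_lit 80994385))))) (T.n (nat_lit 907) (T.n (nat_lit 905) (T.n (nat_lit 904) (T.l (nat_lit 5315486236)) (T.l (nat_lit 1024997))) (T.n (nat_lit 906) (T.l (nat_lit 902176)) (T.l (nat_lit 581695)))) (T.n (nat_lit 909) (T.n (nat_lit 908) (T.l (nat_lit 15679996)) (T.l (nat_lit 15680091))) (T.n (nat_lit 910) (T.l (nat_lit 115851437087)) (T.l (nat_lit 110750204835)))))) (T.n (nat_lit 919) (T.n (nat_lit 915) (T.n (nat_lit 913) (T.n (nat_lit 912) (T.l (nat_lit 118581403739)) (T.l (nat_lit 15173611))) (T.n (nat_lit 914) (T.l (nat_lit 5062836)) (T.l (nat_lit 3588410)))) (T.n (nat_lit 917) (T.n (nat_lit 916) (T.l (nat_lit 81158225)) (T.l (nat_lit 5315650076))) (T.n (nat_lit 918) (T.l (nat_lit 8939529025)) (T.l (nat_lit 349192283))))) (T.n (nat_lit 923) (T.n (nat_lit 921) (T.n (nat_lit 920) (T.l (nat_lit 80748625)) (T.l (nat_lit 5315240476))) (T.n (nat_lit 922) (T.l (nat_lit 8939119425)) (T.l (nat_lit 752091597)))) (T.n (nat_lit 925) (T.n (nat_lit 924) (T.l (nat_lit 2429813557)) (T.l (nat_lit 336291516))) (T.n (nat_lit 926) (T.l (nat_lit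 115851478133)) (T.l (nat_lit 115839347226))))))) (T.n (nat_lit 943) (T.n (nat_lit 935) (T.n (nat_lit 931) (T.n (nat_lit 929) (T.n (nat_lit 928) (T.l (nat_lit 1638995)) (T.l (nat_lit 15073788))) (T.n (nat_lit 930) (T.l (nat_lit 15073883)) (T.l (nat_lit 15802876)))) (T.n (nat_lit 933) (T.n (nat_lit 932) (T.l (nat_lit 15802971)) (T.l (nat_lit 17967080))) (T.n (nat_lit 934) (T.l (nat_lit 5447876)) (T.l (nat_lit 110749492100))))) (T.n (nat_lit 939) (T.n (nat_lit 937) (T.n (nat_lit 936) (T.l (nat_lit 112226083716)) (T.l (nat_lit 114643715260))) (T.n (nat_lit 938) (T.l (nat_lit 110270415516)) (T.l (nat_lit 1020462625006241)))) (T.n (nat_lit 941) (T.n (nat_lit 940) (T.l (nat_lit 4958597)) (T.l (nat_lit 81350682917))) (T.n (nat_lit 942) (T.l (nat_lit 115849077671)) (T.l (nat_lit 110746378831)))))) (T.n (nat_lit 951) (T.n (nat_lit 947) (T.n (nat_lit 945) (T.n (nat_lit 944) (T.l (nat_lit 5916859)) (T.l (nat_lit 20063001))) (T.n (nat_lit 946) (T.l (nat_lit 18555673)) (T.l (nat_lit 124306350715)))) (T.n (nat_lit 949) (T.n (nat_lit 948) (T.l (nat_lit 3988651873558086270604527339184))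 (T.l (nat_lit 7255301212084979278))) (T.n (nat_lit 950) (T.l (nat_lit 885764929947213)) (T.l (nat_lit 7255303398357935707))))) (T.n (nat_lit 955) (T.n (nat_lit 953) (T.n (nat_lit 952) (T.l (nat_lit 7255318791507240539)) (T.l (nat_lit 32674981678837988651057098673661531))) (T.n (nat_lit 954) (T.l (nat_lit 267680041720822609318056397300475930203)) (T.l (nat_lit 2779562778429214274840155)))) (T.n (nat_lit 957) (T.n (nat_lit 956) (T.l (nat_lit 5146823)) (T.l (nat_lit 16597077))) (T.n (nat_lit 958) (T.l (nat_lit 16597838)) (T.l (nat_lit 16319050)))))))) (T.n (nat_lit 991) (T.n (nat_lit 975) (T.n (nat_lit 967) (T.n (nat_lit 963) (T.n (nat_lit 961) (T.n (nat_lit 960) (T.l (nat_lit 4067872540828222724265027913319)) (T.l (nat_lit 60616050568563260089947))) (T.n (nat_lit 962) (T.l (nat_lit 1553982115069781595)) (T.l (nat_lit 508957807000791681799512145)))) (T.n (nat_lit 965) (T.n (nat_lit 964) (T.l (nat_lit 32679997822517844288878346982465658)) (T.l (nat_lit 2192780239527061029432375445928602203416190))) (T.n (nat_lit 966) (T.l (nat_lit 163015248234767963))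 (T.l (nat_lit 7255340234399901275))))) (T.n (nat_lit 971) (T.n (nat_lit 969) (T.n (nat_lit 968) (T.l (nat_lit 32674984222103800078870066348533746)) (T.l (nat_lit 413461976073982887922))) (T.n (nat_lit 970) (T.l (nat_lit 7399434000789497435)) (T.l (nat_lit 166884689246933646087578701542540891)))) (T.n (nat_lit 973) (T.n (nat_lit 972) (T.l (nat_lit 59546360177722718265623)) (T.l (nat_lit 7256189606931015259))) (T.n (nat_lit 974) (T.l (nat_lit 7259825690479280437)) (T.l (nat_lit 7255539258567123142)))))) (T.n (nat_lit 983) (T.n (nat_lit 979) (T.n (nat_lit 977) (T.n (nat_lit 976) (T.l (nat_lit 1008915276296421533)) (T.l (nat_lit 3988644076820342605311937619534))) (T.n (nat_lit 978) (T.l (nat_lit 202710469856962139)) (T.l (nat_lit 267706145177030688355339856067081094747)))) (T.n (nat_lit 981) (T.n (nat_lit 980) (T.l (nat_lit 48659596849222019204407361)) (T.l (nat_lit 1045720888694596441))) (T.n (nat_lit 982) (T.l (nat_lit 59435450121071391499867)) (T.l (nat_lit 825086735288118704032863748283))))) (T.n (nat_lit 987) (T.n (nat_lit 985) (T.n (nat_lit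 984) (T.l (nat_lit 16588885)) (T.l (nat_lit 7489861))) (T.n (nat_lit 986) (T.l (nat_lit 5916997)) (T.l (nat_lit 112225453162)))) (T.n (nat_lit 989) (T.n (nat_lit 988) (T.l (nat_lit 2344984)) (T.l (nat_lit 126584292796))) (T.n (nat_lit 990) (T.l (nat_lit 19768018)) (T.l (nat_lit 16785493))))))) (T.n (nat_lit 1007) (T.n (nat_lit 999) (T.n (nat_lit 995) (T.n (nat_lit 993) (T.n (nat_lit 992) (T.l (nat_lit 18555819)) (T.l (nat_lit 19948459))) (T.n (nat_lit 994) (T.l (nat_lit 163554035463)) (T.l (nat_lit 49506346173000)))) (T.n (nat_lit 997) (T.n (nat_lit 996) (T.l (nat_lit 119071728828)) (T.l (nat_lit 152016315450))) (T.n (nat_lit 998) (T.l (nat_lit 2344939)) (T.l (nat_lit 20071506))))) (T.n (nat_lit 1003) (T.n (nat_lit 1001) (T.n (nat_lit 1000) (T.l (nat_lit 112223560784)) (T.l (nat_lit 5236922))) (T.n (nat_lit 1002) (T.l (nat_lit 698256)) (T.l (nat_lit 19178486)))) (T.n (nat_lit 1005) (T.n (nat_lit 1004) (T.l (nat_lit 15205040)) (T.l (nat_lit 59476572316090195175015))) (T.n (nat_lit 1006) (T.l (nat_lit 496626055199484005568293082)) (T.l (nat_lit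 108180448294)))))) (T.n (nat_lit 1015) (T.n (nat_lit 1011) (T.n (nat_lit 1009) (T.n (nat_lit 1008) (T.l (nat_lit 108127641649)) (T.l (nat_lit 18129644))) (T.n (nat_lit 1010) (T.l (nat_lit 8227015)) (T.l (nat_lit 32678948043849661395850376373921389)))) (T.n (nat_lit 1013) (T.n (nat_lit 1012) (T.l (nat_lit 3989138165260329865435645281968)) (T.l (nat_lit 2229490722701))) (T.n (nat_lit 1014) (T.l (nat_lit 166376651031506185107595869712090891)) (T.l (nat_lit 130876521422710352))))) (T.n (nat_lit 1019) (T.n (nat_lit 1017) (T.n (nat_lit 1016) (T.l (nat_lit 7255303398344664697)) (T.l (nat_lit 413228701353859694874))) (T.n (nat_lit 1018) (T.l (nat_lit 59442673721592636434023)) (T.l (nat_lit 2192780901690799253160825494583539669214951)))) (T.n (nat_lit 1021) (T.n (nat_lit 1020) (T.l (nat_lit 486896866179217316737253381)) (T.l (nat_lit 32675051006549769179152110875379376))) (T.n (nat_lit 1022) (T.l (nat_lit 2192780901686894790203752074643976041391719)) (T.l (nat_lit 162154433709434459)))))))))))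
def h2 : T := (T.n (nat_lit 1279) (T.n (nat_lit 1151) (T.n (nat_lit 1087) (T.n (nat_lit 1055) (T.n (nat_lit 1039) (T.n (nat_lit 1031) (T.n (nat_lit 1027) (T.n (nat_lit 1025) (T.n (nat_lit 1024) (T.l (nat_lit 32675006438533218242453577538799207)) (T.l (nat_lit 496581524956342463863940699))) (T.n (nat_lit 1026) (T.l (nat_lit 14973786858777817943626925192929794369559)) (T.l (nat_lit 486896202064914712061059076)))) (T.n (nat_lit 1029) (T.n (nat_lit 1028) (T.l (nat_lit 32679076844376883748307426630213636)) (T.l (nat_lit 4523391588196433))) (T.n (nat_lit 1030) (T.l (nat_lit 32674971776514718574065509794301514)) (T.l (nat_lit 23876690807176611878340205))))) (T.n (nat_lit 1035) (T.n (nat_lit 1033) (T.n (nat_lit 1032) (T.l (nat_lit 1553982222848288347)) (T.l (nat_lit 423402256718725696))) (T.n (nat_lit 1034) (T.l (nat_lit 7297077255358054656)) (T.l (nat_lit 8511890160987580041)))) (T.n (nat_lit 1037) (T.n (nat_lit 1036) (T.l (nat_lit 18155649)) (T.l (nat_lit 7602979422826899028))) (T.n (nat_lit 1038) (T.l (nat_lit 96420401438824282849231705)) (T.l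 (nat_lit 18777455033626050854796109029569392649240682504)))))) (T.n (nat_lit 1047) (T.n (nat_lit 1043) (T.n (nat_lit 1041) (T.n (nat_lit 1040) (T.l (nat_lit 59444066539620120585849)) (T.l (nat_lit 81210035299852828805433))) (T.n (nat_lit 1042) (T.l (nat_lit 688131)) (T.l (nat_lit 7418320404765139059)))) (T.n (nat_lit 1045) (T.n (nat_lit 1044) (T.l (nat_lit 19186594)) (T.l (nat_lit 2345072))) (T.n (nat_lit 1046) (T.l (nat_lit 77525703960213)) (T.l (nat_lit 15171654))))) (T.n (nat_lit 1051) (T.n (nat_lit 1049) (T.n (nat_lit 1048) (T.l (nat_lit 5236942)) (T.l (nat_lit 891814459115145))) (T.n (nat_lit 1050) (T.l (nat_lit 16752718)) (T.l (nat_lit 19809820154334875685013997232)))) (T.n (nat_lit 1053) (T.n (nat_lit 1052) (T.l (nat_lit 7255303506068194982)) (T.l (nat_lit 21775433))) (T.n (nat_lit 1054) (T.l (nat_lit 886321001062471)) (T.l (nat_lit 108179825346))))))) (T.n (nat_lit 1071) (T.n (nat_lit 1063) (T.n (nat_lit 1059) (T.n (nat_lit 1057) (T.n (nat_lit 1056) (T.l (nat_lit 167588772224969147)) (T.l (nat_lit 7445489330724872812))) (T.n (nat_lit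 1058) (T.l (nat_lit 13608845)) (T.l (nat_lit 32679020326733519181735306886973058)))) (T.n (nat_lit 1061) (T.n (nat_lit 1060) (T.l (nat_lit 32674982182053359060690448807976981)) (T.l (nat_lit 780410))) (T.n (nat_lit 1062) (T.l (nat_lit 2345144)) (T.l (nat_lit 111334408386))))) (T.n (nat_lit 1067) (T.n (nat_lit 1065) (T.n (nat_lit 1064) (T.l (nat_lit 110139236450)) (T.l (nat_lit 13805179))) (T.n (nat_lit 1066) (T.l (nat_lit 13600666)) (T.l (nat_lit 170975336982266)))) (T.n (nat_lit 1069) (T.n (nat_lit 1068) (T.l (nat_lit 13412273)) (T.l (nat_lit 24812297450457530671802679633))) (T.n (nat_lit 1070) (T.l (nat_lit 618973048487593757753599198912)) (T.l (nat_lit 5650588075)))))) (T.n (nat_lit 1079) (T.n (nat_lit 1075) (T.n (nat_lit 1073) (T.n (nat_lit 1072) (T.l (nat_lit 7616626118510945938)) (T.l (nat_lit 1241465009317650))) (T.n (nat_lit 1074) (T.l (nat_lit 780358)) (T.l (nat_lit 575524)))) (T.n (nat_lit 1077) (T.n (nat_lit 1076) (T.l (nat_lit 7259915856938090561)) (T.l (nat_lit 7260698709234131150))) (T.n (nat_lit 1078) (T.l (nat_lit 5236829))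 (T.l (nat_lit 1290053203))))) (T.n (nat_lit 1083) (T.n (nat_lit 1081) (T.n (nat_lit 1080) (T.l (nat_lit 8056989235819577460)) (T.l (nat_lit 289775541773907))) (T.n (nat_lit 1082) (T.l (nat_lit 2229307110357149378)) (T.l (nat_lit 2229333495683424285)))) (T.n (nat_lit 1085) (T.n (nat_lit 1084) (T.l (nat_lit 229814241478497)) (T.l (nat_lit 243143606616493))) (T.n (nat_lit 1086) (T.l (nat_lit 3989131516766124515375224307782)) (T.l (nat_lit 945146625631824)))))))) (T.n (nat_lit 1119) (T.n (nat_lit 1103) (T.n (nat_lit 1095) (T.n (nat_lit 1091) (T.n (nat_lit 1089) (T.n (nat_lit 1088) (T.l (nat_lit 152391224467555)) (T.l (nat_lit 992429315065618))) (T.n (nat_lit 1090) (T.l (nat_lit 7431854847643083281)) (T.l (nat_lit 2324777811376588403)))) (T.n (nat_lit 1093) (T.n (nat_lit 1092) (T.l (nat_lit 19044579830797013385382)) (T.l (nat_lit 933133534314463348))) (T.n (nat_lit 1094) (T.l (nat_lit 117517617264)) (T.l (nat_lit 16318542))))) (T.n (nat_lit 1099) (T.n (nat_lit 1097) (T.n (nat_lit 1096) (T.l (nat_lit 31876867667)) (T.l (nat_lit 1210039894106800509216617)))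 (T.n (nat_lit 1098) (T.l (nat_lit 9912592024706635111263618719)) (T.l (nat_lit 907137227589443)))) (T.n (nat_lit 1101) (T.n (nat_lit 1100) (T.l (nat_lit 14422323298394179)) (T.l (nat_lit 112758850127))) (T.n (nat_lit 1102) (T.l (nat_lit 112751478808)) (T.l (nat_lit 110739753362)))))) (T.n (nat_lit 1111) (T.n (nat_lit 1107) (T.n (nat_lit 1105) (T.n (nat_lit 1104) (T.l (nat_lit 7774592464650240553)) (T.l (nat_lit 921510817654546))) (T.n (nat_lit 1106) (T.l (nat_lit 33044140873223305933508393675744988)) (T.l (nat_lit 1051253188732496)))) (T.n (nat_lit 1109) (T.n (nat_lit 1108) (T.l (nat_lit 1051253189732023)) (T.l (nat_lit 34784352370697345245358052724426378))) (T.n (nat_lit 1110) (T.l (nat_lit 7539233692176080949)) (T.l (nat_lit 13412203))))) (T.n (nat_lit 1115) (T.n (nat_lit 1113) (T.n (nat_lit 1112) (T.l (nat_lit 18129125)) (T.l (nat_lit 110139189146))) (T.n (nat_lit 1114) (T.l (nat_lit 7598769517167362197)) (T.l (nat_lit 406212399645712413)))) (T.n (nat_lit 1117) (T.n (nat_lit 1116) (T.l (nat_lit 804837)) (T.l (nat_lit 780096))) (T.n (nat_lit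 1118) (T.l (nat_lit 113357890504285)) (T.l (nat_lit 13445244))))))) (T.n (nat_lit 1135) (T.n (nat_lit 1127) (T.n (nat_lit 1123) (T.n (nat_lit 1121) (T.n (nat_lit 1120) (T.l (nat_lit 13346379)) (T.l (nat_lit 18129574))) (T.n (nat_lit 1122) (T.l (nat_lit 13576043)) (T.l (nat_lit 110734698516)))) (T.n (nat_lit 1125) (T.n (nat_lit 1124) (T.l (nat_lit 1039057963411081)) (T.l (nat_lit 60550726764267196571842))) (T.n (nat_lit 1126) (T.l (nat_lit 60106752914682877649471)) (T.l (nat_lit 119071188026))))) (T.n (nat_lit 1131) (T.n (nat_lit 1129) (T.n (nat_lit 1128) (T.l (nat_lit 114640487547)) (T.l (nat_lit 2571485913))) (T.n (nat_lit 1130) (T.l (nat_lit 312967)) (T.l (nat_lit 108181)))) (T.n (nat_lit 1133) (T.n (nat_lit 1132) (T.l (nat_lit 33840022313)) (T.l (nat_lit 5117428266))) (T.n (nat_lit 1134) (T.l (nat_lit 889569516)) (T.l (nat_lit 44912468697)))))) (T.n (nat_lit 1143) (T.n (nat_lit 1139) (T.n (nat_lit 1137) (T.n (nat_lit 1136) (T.l (nat_lit 4177387985)) (T.l (nat_lit 19394775023))) (T.n (nat_lit 1138) (T.l (nat_lit 110543847567)) (T.l (nat_lit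 13330067)))) (T.n (nat_lit 1141) (T.n (nat_lit 1140) (T.l (nat_lit 13086269493)) (T.l (nat_lit 1208565765))) (T.n (nat_lit 1142) (T.l (nat_lit 1286319)) (T.l (nat_lit 15976211))))) (T.n (nat_lit 1147) (T.n (nat_lit 1145) (T.n (nat_lit 1144) (T.l (nat_lit 120542357263)) (T.l (nat_lit 1622203))) (T.n (nat_lit 1146) (T.l (nat_lit 13290348746)) (T.l (nat_lit 16230087)))) (T.n (nat_lit 1149) (T.n (nat_lit 1148) (T.l (nat_lit 118528468728)) (T.l (nat_lit 10539139198))) (T.n (nat_lit 1150) (T.l (nat_lit 6610978)) (T.l (nat_lit 3964152294))))))))) (T.n (nat_lit 1215) (T.n (nat_lit 1183) (T.n (nat_lit 1167) (T.n (nat_lit 1159) (T.n (nat_lit 1155) (T.n (nat_lit 1153) (T.n (nat_lit 1152) (T.l (nat_lit 54157019622)) (T.l (nat_lit 1155075))) (T.n (nat_lit 1154) (T.l (nat_lit 483348)) (T.l (nat_lit 17163394)))) (T.n (nat_lit 1157) (T.n (nat_lit 1156) (T.l (nat_lit 411836)) (T.l (nat_lit 14696492))) (T.n (nat_lit 1158) (T.l (nat_lit 110932469625)) (T.l (nat_lit 108863840350))))) (T.n (nat_lit 1163) (T.n (nat_lit 1161) (T.n (nat_lit 1160) (T.l (nat_lit 3376194573))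 (T.l (nat_lit 3373343221))) (T.n (nat_lit 1162) (T.l (nat_lit 18790893481)) (T.l (nat_lit 20401506050)))) (T.n (nat_lit 1165) (T.n (nat_lit 1164) (T.l (nat_lit 411772)) (T.l (nat_lit 33836786218))) (T.n (nat_lit 1166) (T.l (nat_lit 886333450)) (T.l (nat_lit 5114192108)))))) (T.n (nat_lit 1175) (T.n (nat_lit 1171) (T.n (nat_lit 1169) (T.n (nat_lit 1168) (T.l (nat_lit 2170077937)) (T.l (nat_lit 2166112734))) (T.n (nat_lit 1170) (T.l (nat_lit 2164285757)) (T.l (nat_lit 2163646714)))) (T.n (nat_lit 1173) (T.n (nat_lit 1172) (T.l (nat_lit 13616908)) (T.l (nat_lit 112957834830))) (T.n (nat_lit 1174) (T.l (nat_lit 13705248)) (T.l (nat_lit 16467))))) (T.n (nat_lit 1179) (T.n (nat_lit 1177) (T.n (nat_lit 1176) (T.l (nat_lit 44897282104)) (T.l (nat_lit 11878778648))) (T.n (nat_lit 1178) (T.l (nat_lit 11878581976)) (T.l (nat_lit 37790787721)))) (T.n (nat_lit 1181) (T.n (nat_lit 1180) (T.l (nat_lit 37786396585)) (T.l (nat_lit 18795095810))) (T.n (nat_lit 1182) (T.l (nat_lit 27665654513)) (T.l (nat_lit 21276886647))))))) (T.n (nat_lit 1199) (T.n (nat_lit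 1191) (T.n (nat_lit 1187) (T.n (nat_lit 1185) (T.n (nat_lit 1184) (T.l (nat_lit 27665015262)) (T.l (nat_lit 152611725376))) (T.n (nat_lit 1186) (T.l (nat_lit 137644195904)) (T.l (nat_lit 16777741943)))) (T.n (nat_lit 1189) (T.n (nat_lit 1188) (T.l (nat_lit 21289672768)) (T.l (nat_lit 526309))) (T.n (nat_lit 1190) (T.l (nat_lit 16780593127)) (T.l (nat_lit 2568380881))))) (T.n (nat_lit 1195) (T.n (nat_lit 1193) (T.n (nat_lit 1192) (T.l (nat_lit 4178993881)) (T.l (nat_lit 890470954))) (T.n (nat_lit 1194) (T.l (nat_lit 5118329641)) (T.l (nat_lit 894247721)))) (T.n (nat_lit 1197) (T.n (nat_lit 1196) (T.l (nat_lit 33836818668)) (T.l (nat_lit 44898199320))) (T.n (nat_lit 1198) (T.l (nat_lit 19394971352)) (T.l (nat_lit 13329998)))))) (T.n (nat_lit 1207) (T.n (nat_lit 1203) (T.n (nat_lit 1201) (T.n (nat_lit 1200) (T.l (nat_lit 435803)) (T.l (nat_lit 23154213051))) (T.n (nat_lit 1202) (T.l (nat_lit 29327605935)) (T.l (nat_lit 397202424564408365)))) (T.n (nat_lit 1205) (T.n (nat_lit 1204) (T.l (nat_lit 606261)) (T.l (nat_lit 16230118))) (T.n (nat_lit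 1206) (T.l (nat_lit 15976207)) (T.l (nat_lit 26551))))) (T.n (nat_lit 1211) (T.n (nat_lit 1209) (T.n (nat_lit 1208) (T.l (nat_lit 33840652298)) (T.l (nat_lit 5114224650))) (T.n (nat_lit 1210) (T.l (nat_lit 2976408589)) (T.l (nat_lit 2956896741)))) (T.n (nat_lit 1213) (T.n (nat_lit 1212) (T.l (nat_lit 18790844553)) (T.l (nat_lit 20401457065))) (T.n (nat_lit 1214) (T.l (nat_lit 362107)) (T.l (nat_lit 20405708988)))))))) (T.n (nat_lit 1247) (T.n (nat_lit 1231) (T.n (nat_lit 1223) (T.n (nat_lit 1219) (T.n (nat_lit 1217) (T.n (nat_lit 1216) (T.l (nat_lit 403654)) (T.l (nat_lit 110126024515))) (T.n (nat_lit 1218) (T.l (nat_lit 44910182865)) (T.l (nat_lit 5562945)))) (T.n (nat_lit 1221) (T.n (nat_lit 1220) (T.l (nat_lit 63870212054958677009243)) (T.l (nat_lit 783983109114243924309))) (T.n (nat_lit 1222) (T.l (nat_lit 1729518160950214663)) (T.l (nat_lit 1853033299386077832814))))) (T.n (nat_lit 1227) (T.n (nat_lit 1225) (T.n (nat_lit 1224) (T.l (nat_lit 486654217677049130342113652)) (T.l (nat_lit 948290791193735091626452043541))) (T.n (nat_lit 1226)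 (T.l (nat_lit 32696165817434236513448057731981354)) (T.l (nat_lit 91618502676439853365908777359)))) (T.n (nat_lit 1229) (T.n (nat_lit 1228) (T.l (nat_lit 72071305814799642378402412527649045550394459646422)) (T.l (nat_lit 199168860562022407))) (T.n (nat_lit 1230) (T.l (nat_lit 61951449131236941250567)) (T.l (nat_lit 652517977750121550955004530)))))) (T.n (nat_lit 1239) (T.n (nat_lit 1235) (T.n (nat_lit 1233) (T.n (nat_lit 1232) (T.l (nat_lit 1844706143845585930715)) (T.l (nat_lit 195707015743764230215382083607))) (T.n (nat_lit 1234) (T.l (nat_lit 59657049867071210653335)) (T.l (nat_lit 16085903994803708217201)))) (T.n (nat_lit 1237) (T.n (nat_lit 1236) (T.l (nat_lit 22985419860905735738926968)) (T.l (nat_lit 1882532245715493186))) (T.n (nat_lit 1238) (T.l (nat_lit 24190546124807)) (T.l (nat_lit 59657049743953359120248))))) (T.n (nat_lit 1243) (T.n (nat_lit 1241) (T.n (nat_lit 1240) (T.l (nat_lit 1182658952825054355759)) (T.l (nat_lit 350747177033735))) (T.n (nat_lit 1242) (T.l (nat_lit 59658499992091395195484)) (T.l (nat_lit 144528163209601689))))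 (T.n (nat_lit 1245) (T.n (nat_lit 1244) (T.l (nat_lit 9674218059755493150672893)) (T.l (nat_lit 70955108351596533153967))) (T.n (nat_lit 1246) (T.l (nat_lit 61435692228420342826989)) (T.l (nat_lit 4067929904373175914275084345445))))))) (T.n (nat_lit 1263) (T.n (nat_lit 1255) (T.n (nat_lit 1251) (T.n (nat_lit 1249) (T.n (nat_lit 1248) (T.l (nat_lit 1182556237548287813413)) (T.l (nat_lit 7629986847264383014))) (T.n (nat_lit 1250) (T.l (nat_lit 25692484854264758696863608)) (T.l (nat_lit 17608963810974)))) (T.n (nat_lit 1253) (T.n (nat_lit 1252) (T.l (nat_lit 144528059193033369)) (T.l (nat_lit 339540772914138351352))) (T.n (nat_lit 1254) (T.l (nat_lit 64121085081994764738901)) (T.l (nat_lit 34682965569343267636154222427333284))))) (T.n (nat_lit 1259) (T.n (nat_lit 1257) (T.n (nat_lit 1256) (T.l (nat_lit 907766584213929)) (T.l (nat_lit 775119104739961110953))) (T.n (nat_lit 1258) (T.l (nat_lit 32801207019679527880055456843432358)) (T.l (nat_lit 923042161983555)))) (T.n (nat_lit 1261) (T.n (nat_lit 1260) (T.l (nat_lit 4001040952965742233063558522508))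 (T.l (nat_lit 27260487856667157397866349))) (T.n (nat_lit 1262) (T.l (nat_lit 369044856431741784755718981271)) (T.l (nat_lit 235214352149393214410003464256)))))) (T.n (nat_lit 1271) (T.n (nat_lit 1267) (T.n (nat_lit 1265) (T.n (nat_lit 1264) (T.l (nat_lit 7282357460372693056)) (T.l (nat_lit 7282507091649478781))) (T.n (nat_lit 1266) (T.l (nat_lit 2270457506739168488819950318550392664875103)) (T.l (nat_lit 7282348090483335411)))) (T.n (nat_lit 1269) (T.n (nat_lit 1268) (T.l (nat_lit 10448327008263)) (T.l (nat_lit 2966544391))) (T.n (nat_lit 1270) (T.l (nat_lit 13098283070017214332935)) (T.l (nat_lit 62240220020692097779509))))) (T.n (nat_lit 1275) (T.n (nat_lit 1273) (T.n (nat_lit 1272) (T.l (nat_lit 59656941579487180309135)) (T.l (nat_lit 7282348198461497587))) (T.n (nat_lit 1274) (T.l (nat_lit 3988666157887443786317886)) (T.l (nat_lit 32675151866823683616372089436)))) (T.n (nat_lit 1277) (T.n (nat_lit 1276) (T.l (nat_lit 59659364654605387031132)) (T.l (nat_lit 488725197096524916732575808))) (T.n (nat_lit 1278) (T.l (nat_lit 110125753937))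 (T.l (nat_lit 186369776107645)))))))))) (T.n (nat_lit 1407) (T.n (nat_lit 1343) (T.n (nat_lit 1311) (T.n (nat_lit 1295) (T.n (nat_lit 1287) (T.n (nat_lit 1283) (T.n (nat_lit 1281) (T.n (nat_lit 1280) (T.l (nat_lit 210559431499783)) (T.l (nat_lit 108528478106))) (T.n (nat_lit 1282) (T.l (nat_lit 13412490)) (T.l (nat_lit 13609098)))) (T.n (nat_lit 1285) (T.n (nat_lit 1284) (T.l (nat_lit 13576330)) (T.l (nat_lit 21676699))) (T.n (nat_lit 1286) (T.l (nat_lit 19948313)) (T.l (nat_lit 19866393))))) (T.n (nat_lit 1291) (T.n (nat_lit 1289) (T.n (nat_lit 1288) (T.l (nat_lit 19448358)) (T.l (nat_lit 19800614))) (T.n (nat_lit 1290) (T.l (nat_lit 18547238)) (T.l (nat_lit 22389833)))) (T.n (nat_lit 1293) (T.n (nat_lit 1292) (T.l (nat_lit 16933450)) (T.l (nat_lit 15958602))) (T.n (nat_lit 1294) (T.l (nat_lit 17834732)) (T.l (nat_lit 19137260)))))) (T.n (nat_lit 1303) (T.n (nat_lit 1299) (T.n (nat_lit 1297) (T.n (nat_lit 1296) (T.l (nat_lit 17924844)) (T.l (nat_lit 16753226))) (T.n (nat_lit 1298) (T.l (nat_lit 22389750)) (T.l (nat_lit 16933606)))) (T.n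 (nat_lit 1301) (T.n (nat_lit 1300) (T.l (nat_lit 15958758)) (T.l (nat_lit 16319206))) (T.n (nat_lit 1302) (T.l (nat_lit 20063147)) (T.l (nat_lit 19866539))))) (T.n (nat_lit 1307) (T.n (nat_lit 1305) (T.n (nat_lit 1304) (T.l (nat_lit 19448738)) (T.l (nat_lit 19800994))) (T.n (nat_lit 1306) (T.l (nat_lit 18547618)) (T.l (nat_lit 16753382)))) (T.n (nat_lit 1309) (T.n (nat_lit 1308) (T.l (nat_lit 21676890)) (T.l (nat_lit 17834662))) (T.n (nat_lit 1310) (T.l (nat_lit 19137190)) (T.l (nat_lit 17924774))))))) (T.n (nat_lit 1327) (T.n (nat_lit 1319) (T.n (nat_lit 1315) (T.n (nat_lit 1313) (T.n (nat_lit 1312) (T.l (nat_lit 19350171)) (T.l (nat_lit 19808923))) (T.n (nat_lit 1314) (T.l (nat_lit 19153563)) (T.l (nat_lit 19350362)))) (T.n (nat_lit 1317) (T.n (nat_lit 1316) (T.l (nat_lit 19809114)) (T.l (nat_lit 19153754))) (T.n (nat_lit 1318) (T.l (nat_lit 15475001)) (T.l (nat_lit 15778105))))) (T.n (nat_lit 1323) (T.n (nat_lit 1321) (T.n (nat_lit 1320) (T.l (nat_lit 15548729)) (T.l (nat_lit 21676672))) (T.n (nat_lit 1322) (T.l (nat_lit 17834213)) (T.l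 (nat_lit 18546908)))) (T.n (nat_lit 1325) (T.n (nat_lit 1324) (T.l (nat_lit 17924325)) (T.l (nat_lit 19136741))) (T.n (nat_lit 1326) (T.l (nat_lit 19350144)) (T.l (nat_lit 16992520)))))) (T.n (nat_lit 1335) (T.n (nat_lit 1331) (T.n (nat_lit 1329) (T.n (nat_lit 1328) (T.l (nat_lit 19153536)) (T.l (nat_lit 17721608))) (T.n (nat_lit 1330) (T.l (nat_lit 19808896)) (T.l (nat_lit 17154879)))) (T.n (nat_lit 1333) (T.n (nat_lit 1332) (T.l (nat_lit 13264886)) (T.l (nat_lit 13754402))) (T.n (nat_lit 1334) (T.l (nat_lit 13410307)) (T.l (nat_lit 13287458))))) (T.n (nat_lit 1339) (T.n (nat_lit 1337) (T.n (nat_lit 1336) (T.l (nat_lit 13606915)) (T.l (nat_lit 13574147))) (T.n (nat_lit 1338) (T.l (nat_lit 13959238)) (T.l (nat_lit 13557794)))) (T.n (nat_lit 1341) (T.n (nat_lit 1340) (T.l (nat_lit 13262882)) (T.l (nat_lit 5777342))) (T.n (nat_lit 1342) (T.l (nat_lit 845403)) (T.l (nat_lit 5073010)))))))) (T.n (nat_lit 1375) (T.n (nat_lit 1359) (T.n (nat_lit 1351) (T.n (nat_lit 1347) (T.n (nat_lit 1345) (T.n (nat_lit 1344) (T.l (nat_lit 1705740)) (T.l (nat_lit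 13600653))) (T.n (nat_lit 1346) (T.l (nat_lit 13412237)) (T.l (nat_lit 13289596)))) (T.n (nat_lit 1349) (T.n (nat_lit 1348) (T.l (nat_lit 13494396)) (T.l (nat_lit 6555847))) (T.n (nat_lit 1350) (T.l (nat_lit 7489723)) (T.l (nat_lit 9677006))))) (T.n (nat_lit 1355) (T.n (nat_lit 1353) (T.n (nat_lit 1352) (T.l (nat_lit 15204987)) (T.l (nat_lit 15671898))) (T.n (nat_lit 1354) (T.l (nat_lit 5769024)) (T.l (nat_lit 9062789)))) (T.n (nat_lit 1357) (T.n (nat_lit 1356) (T.l (nat_lit 8234987)) (T.l (nat_lit 8161259))) (T.n (nat_lit 1358) (T.l (nat_lit 9062978)) (T.l (nat_lit 9185858)))))) (T.n (nat_lit 1367) (T.n (nat_lit 1363) (T.n (nat_lit 1361) (T.n (nat_lit 1360) (T.l (nat_lit 8161304)) (T.l (nat_lit 8235032))) (T.n (nat_lit 1362) (T.l (nat_lit 8227027)) (T.l (nat_lit 6555859)))) (T.n (nat_lit 1365) (T.n (nat_lit 1364) (T.l (nat_lit 9676986)) (T.l (nat_lit 10111162))) (T.n (nat_lit 1366) (T.l (nat_lit 6555899)) (T.l (nat_lit 8227067))))) (T.n (nat_lit 1371) (T.n (nat_lit 1369) (T.n (nat_lit 1368) (T.l (nat_lit 7489901)) (T.l (nat_lit 10111267)))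 (T.n (nat_lit 1370) (T.l (nat_lit 9677091)) (T.l (nat_lit 13608881)))) (T.n (nat_lit 1373) (T.n (nat_lit 1372) (T.l (nat_lit 13576113)) (T.l (nat_lit 16868032))) (T.n (nat_lit 1374) (T.l (nat_lit 13600619)) (T.l (nat_lit 13543397))))))) (T.n (nat_lit 1391) (T.n (nat_lit 1383) (T.n (nat_lit 1379) (T.n (nat_lit 1377) (T.n (nat_lit 1376) (T.l (nat_lit 13289445)) (T.l (nat_lit 9185682))) (T.n (nat_lit 1378) (T.l (nat_lit 8161392)) (T.l (nat_lit 8235120)))) (T.n (nat_lit 1381) (T.n (nat_lit 1380) (T.l (nat_lit 13608858)) (T.l (nat_lit 13576090))) (T.n (nat_lit 1382) (T.l (nat_lit 13289702)) (T.l (nat_lit 13543654))))) (T.n (nat_lit 1387) (T.n (nat_lit 1385) (T.n (nat_lit 1384) (T.l (nat_lit 13445350)) (T.l (nat_lit 13494337))) (T.n (nat_lit 1386) (T.l (nat_lit 13445185)) (T.l (nat_lit 7489860)))) (T.n (nat_lit 1389) (T.n (nat_lit 1388) (T.l (nat_lit 5916996)) (T.l (nat_lit 8227117))) (T.n (nat_lit 1390) (T.l (nat_lit 6555949)) (T.l (nat_lit 9676893)))))) (T.n (nat_lit 1399) (T.n (nat_lit 1395) (T.n (nat_lit 1393) (T.n (nat_lit 1392) (T.l (nat_lit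 10111069)) (T.l (nat_lit 17351360))) (T.n (nat_lit 1394) (T.l (nat_lit 17351291)) (T.l (nat_lit 9062808)))) (T.n (nat_lit 1397) (T.n (nat_lit 1396) (T.l (nat_lit 9185688)) (T.l (nat_lit 8161464))) (T.n (nat_lit 1398) (T.l (nat_lit 8235192)) (T.l (nat_lit 14403649))))) (T.n (nat_lit 1403) (T.n (nat_lit 1401) (T.n (nat_lit 1400) (T.l (nat_lit 313400)) (T.l (nat_lit 313112))) (T.n (nat_lit 1402) (T.l (nat_lit 264167)) (T.l (nat_lit 263799)))) (T.n (nat_lit 1405) (T.n (nat_lit 1404) (T.l (nat_lit 108199)) (T.l (nat_lit 624763))) (T.n (nat_lit 1406) (T.l (nat_lit 108667)) (T.l (nat_lit 4301355))))))))) (T.n (nat_lit 1471) (T.n (nat_lit 1439) (T.n (nat_lit 1423) (T.n (nat_lit 1415) (T.n (nat_lit 1411) (T.n (nat_lit 1409) (T.n (nat_lit 1408) (T.l (nat_lit 526311)) (T.l (nat_lit 510008))) (T.n (nat_lit 1410) (T.l (nat_lit 362684)) (T.l (nat_lit 13197346)))) (T.n (nat_lit 1413) (T.n (nat_lit 1412) (T.l (nat_lit 2418110118869260732376697)) (T.l (nat_lit 225183940134233877))) (T.n (nat_lit 1414) (T.l (nat_lit 64728230257400728264959765)) (T.l (nat_lit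 259984819639003498261))))) (T.n (nat_lit 1419) (T.n (nat_lit 1417) (T.n (nat_lit 1416) (T.l (nat_lit 7597576423033423637)) (T.l (nat_lit 809615811512411419131722752029))) (T.n (nat_lit 1418) (T.l (nat_lit 1034920902795551722213606580253)) (T.l (nat_lit 1298099048086363380238037370150941)))) (T.n (nat_lit 1421) (T.n (nat_lit 1420) (T.l (nat_lit 923042161680451)) (T.l (nat_lit 7260010408430708301))) (T.n (nat_lit 1422) (T.l (nat_lit 60623337617160455390872)) (T.l (nat_lit 7624643755612881624)))))) (T.n (nat_lit 1431) (T.n (nat_lit 1427) (T.n (nat_lit 1425) (T.n (nat_lit 1424) (T.l (nat_lit 112761439152)) (T.l (nat_lit 114631739603))) (T.n (nat_lit 1426) (T.l (nat_lit 112752150853)) (T.l (nat_lit 112751814867)))) (T.n (nat_lit 1429) (T.n (nat_lit 1428) (T.l (nat_lit 939163536942058)) (T.l (nat_lit 770510389052610220569381258832))) (T.n (nat_lit 1430) (T.l (nat_lit 109321503728)) (T.l (nat_lit 1400640501817082053))))) (T.n (nat_lit 1435) (T.n (nat_lit 1433) (T.n (nat_lit 1432) (T.l (nat_lit 5305995378789067022942552983120)) (T.l (nat_lit 908859452237468)))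 (T.n (nat_lit 1434) (T.l (nat_lit 23662932457984441165596270)) (T.l (nat_lit 3989237963842872771733162305192)))) (T.n (nat_lit 1437) (T.n (nat_lit 1436) (T.l (nat_lit 157507)) (T.l (nat_lit 1856221770529544864066))) (T.n (nat_lit 1438) (T.l (nat_lit 702859817937294344439)) (T.l (nat_lit 27489068402344))))))) (T.n (nat_lit 1455) (T.n (nat_lit 1447) (T.n (nat_lit 1443) (T.n (nat_lit 1441) (T.n (nat_lit 1440) (T.l (nat_lit 62165563577539790546507)) (T.l (nat_lit 117525456037))) (T.n (nat_lit 1442) (T.l (nat_lit 120737056572)) (T.l (nat_lit 2566259)))) (T.n (nat_lit 1445) (T.n (nat_lit 1444) (T.l (nat_lit 2566183)) (T.l (nat_lit 120745165907))) (T.n (nat_lit 1446) (T.l (nat_lit 7260698209202758568)) (T.l (nat_lit 7827728508793880621))))) (T.n (nat_lit 1451) (T.n (nat_lit 1449) (T.n (nat_lit 1448) (T.l (nat_lit 333456057992937744)) (T.l (nat_lit 59658180003942893044141))) (T.n (nat_lit 1450) (T.l (nat_lit 59658180003942893044307)) (T.l (nat_lit 109870810801)))) (T.n (nat_lit 1453) (T.n (nat_lit 1452) (T.l (nat_lit 992417706813198)) (T.l (nat_lit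 112286418533))) (T.n (nat_lit 1454) (T.l (nat_lit 496625760212609448190756426)) (T.l (nat_lit 115845104169)))))) (T.n (nat_lit 1463) (T.n (nat_lit 1459) (T.n (nat_lit 1457) (T.n (nat_lit 1456) (T.l (nat_lit 62868233189344465372862)) (T.l (nat_lit 142141105800))) (T.n (nat_lit 1458) (T.l (nat_lit 903356983395934)) (T.l (nat_lit 229364009191289)))) (T.n (nat_lit 1461) (T.n (nat_lit 1460) (T.l (nat_lit 15729356)) (T.l (nat_lit 28169919499340959909226101))) (T.n (nat_lit 1462) (T.l (nat_lit 128863011980)) (T.l (nat_lit 182633344529860503231353134950538))))) (T.n (nat_lit 1467) (T.n (nat_lit 1465) (T.n (nat_lit 1464) (T.l (nat_lit 127553885520070)) (T.l (nat_lit 7400300509851289162))) (T.n (nat_lit 1466) (T.l (nat_lit 157434)) (T.l (nat_lit 7400300502200436416)))) (T.n (nat_lit 1469) (T.n (nat_lit 1468) (T.l (nat_lit 15777941)) (T.l (nat_lit 902155130652283))) (T.n (nat_lit 1470) (T.l (nat_lit 157561)) (T.l (nat_lit 50057108465243)))))))) (T.n (nat_lit 1503) (T.n (nat_lit 1487) (T.n (nat_lit 1479) (T.n (nat_lit 1475) (T.n (nat_lit 1473) (T.n (nat_lit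 1472) (T.l (nat_lit 2731374816886375204455)) (T.l (nat_lit 945151390230538))) (T.n (nat_lit 1474) (T.l (nat_lit 83575)) (T.l (nat_lit 207510286064279581)))) (T.n (nat_lit 1477) (T.n (nat_lit 1476) (T.l (nat_lit 1697524787656666742822)) (T.l (nat_lit 360455))) (T.n (nat_lit 1478) (T.l (nat_lit 17285742)) (T.l (nat_lit 207217380300546098))))) (T.n (nat_lit 1483) (T.n (nat_lit 1481) (T.n (nat_lit 1480) (T.l (nat_lit 508084)) (T.l (nat_lit 3303162))) (T.n (nat_lit 1482) (T.l (nat_lit 256310498494314)) (T.l (nat_lit 1222453)))) (T.n (nat_lit 1485) (T.n (nat_lit 1484) (T.l (nat_lit 31276623669)) (T.l (nat_lit 3302995))) (T.n (nat_lit 1486) (T.l (nat_lit 5769236)) (T.l (nat_lit 568034285530601986688900901062284)))))) (T.n (nat_lit 1495) (T.n (nat_lit 1491) (T.n (nat_lit 1489) (T.n (nat_lit 1488) (T.l (nat_lit 3934005)) (T.l (nat_lit 19408822851217885500147977))) (T.n (nat_lit 1490) (T.l (nat_lit 32216016774)) (T.l (nat_lit 8056965028443005436)))) (T.n (nat_lit 1493) (T.n (nat_lit 1492) (T.l (nat_lit 110748975917)) (T.l (nat_lit 19403688193473003230545808)))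 (T.n (nat_lit 1494) (T.l (nat_lit 5664034714645066192194479922050668335459851781754)) (T.l (nat_lit 112762045229))))) (T.n (nat_lit 1499) (T.n (nat_lit 1497) (T.n (nat_lit 1496) (T.l (nat_lit 112211093540)) (T.l (nat_lit 112222610160))) (T.n (nat_lit 1498) (T.l (nat_lit 112214608056)) (T.l (nat_lit 3025608353479511720046)))) (T.n (nat_lit 1501) (T.n (nat_lit 1500) (T.l (nat_lit 112219284054)) (T.l (nat_lit 411257))) (T.n (nat_lit 1502) (T.l (nat_lit 661356458780254)) (T.l (nat_lit 12285694608580707008699))))))) (T.n (nat_lit 1519) (T.n (nat_lit 1511) (T.n (nat_lit 1507) (T.n (nat_lit 1505) (T.n (nat_lit 1504) (T.l (nat_lit 59472320908592436455018)) (T.l (nat_lit 9925958609001846513672593616))) (T.n (nat_lit 1506) (T.l (nat_lit 13739747)) (T.l (nat_lit 108192679501)))) (T.n (nat_lit 1509) (T.n (nat_lit 1508) (T.l (nat_lit 4062945565126082297113038571125)) (T.l (nat_lit 69340117543825707383463970569))) (T.n (nat_lit 1510) (T.l (nat_lit 188291407627752185465620005531)) (T.l (nat_lit 188291407627752185465620005722))))) (T.n (nat_lit 1515) (T.n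 (nat_lit 1513) (T.n (nat_lit 1512) (T.l (nat_lit 5097511)) (T.l (nat_lit 488408392478713705622071299))) (T.n (nat_lit 1514) (T.l (nat_lit 13153714240)) (T.l (nat_lit 10635187027977328367049610176080815738)))) (T.n (nat_lit 1517) (T.n (nat_lit 1516) (T.l (nat_lit 108186624071)) (T.l (nat_lit 262211))) (T.n (nat_lit 1518) (T.l (nat_lit 15200459414499754493522)) (T.l (nat_lit 21756813526)))))) (T.n (nat_lit 1527) (T.n (nat_lit 1523) (T.n (nat_lit 1521) (T.n (nat_lit 1520) (T.l (nat_lit 483246130)) (T.l (nat_lit 9803))) (T.n (nat_lit 1522) (T.l (nat_lit 5390463935219293)) (T.l (nat_lit 4202865465137946928312012859141601755753738592463)))) (T.n (nat_lit 1525) (T.n (nat_lit 1524) (T.l (nat_lit 1222497)) (T.l (nat_lit 155049876111655))) (T.n (nat_lit 1526) (T.l (nat_lit 27515640931922)) (T.l (nat_lit 1807947554168344315589))))) (T.n (nat_lit 1531) (T.n (nat_lit 1529) (T.n (nat_lit 1528) (T.l (nat_lit 453529103125063155932477319797538547597345)) (T.l (nat_lit 492335815729100381855245915))) (T.n (nat_lit 1530) (T.l (nat_lit 270664477082358842911883467792053043265))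 (T.l (nat_lit 108192835146)))) (T.n (nat_lit 1533) (T.n (nat_lit 1532) (T.l (nat_lit 60394807639373206593634)) (T.l (nat_lit 13412250))) (T.n (nat_lit 1534) (T.l (nat_lit 17719898)) (T.l (nat_lit 5204004)))))))))))
def h3 : T := (T.n (nat_lit 1550) (T.n (nat_lit 1542) (T.n (nat_lit 1538) (T.n (nat_lit 1536) (T.l (nat_lit 25294821589030)) (T.n (nat_lit 1537) (T.l (nat_lit 114630150155)) (T.l (nat_lit 114631469057)))) (T.n (nat_lit 1540) (T.n (nat_lit 1539) (T.l (nat_lit 114641093932)) (T.l (nat_lit 18322369565705107955901592659017847434182166134))) (T.n (nat_lit 1541) (T.l (nat_lit 33328032193802148386782972951955021)) (T.l (nat_lit 5097587))))) (T.n (nat_lit 1546) (T.n (nat_lit 1544) (T.n (nat_lit 1543) (T.l (nat_lit 886315692361351)) (T.l (nat_lit 2361485889719236560506))) (T.n (nat_lit 1545) (T.l (nat_lit 886220881110629)) (T.l (nat_lit 13)))) (T.n (nat_lit 1548) (T.n (nat_lit 1547) (T.l (nat_lit 34)) (T.l (nat_lit 2021))) (T.n (nat_lit 1549) (T.l (nat_lit 886314430711484)) (T.l (nat_lit 622792)))))) (T.n (nat_lit 1557) (T.n (nat_lit 1553)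 (T.n (nat_lit 1551) (T.l (nat_lit 983515702354045)) (T.n (nat_lit 1552) (T.l (nat_lit 114638931149)) (T.l (nat_lit 1257588636889913318437034804045434)))) (T.n (nat_lit 1555) (T.n (nat_lit 1554) (T.l (nat_lit 13207437)) (T.l (nat_lit 47832918328908))) (T.n (nat_lit 1556) (T.l (nat_lit 26244)) (T.l (nat_lit 13346378))))) (T.n (nat_lit 1561) (T.n (nat_lit 1559) (T.n (nat_lit 1558) (T.l (nat_lit 112180168174234157061)) (T.l (nat_lit 110720999039953717000))) (T.n (nat_lit 1560) (T.l (nat_lit 14874930429043263)) (T.l (nat_lit 26195)))) (T.n (nat_lit 1563) (T.n (nat_lit 1562) (T.l (nat_lit 279224938656351854)) (T.l (nat_lit 34085062051514))) (T.n (nat_lit 1564) (T.l (nat_lit 110721008386258798730)) (T.l (nat_lit 0)))))))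
def H : T := (T.n (nat_lit 1023) (T.n (nat_lit 511) h0 h1) (T.n (nat_lit 1535) h2 h3))
theorem hlast : getB H 1565 = 0 := by decide +kernel
end Vale.Agent.Lib.P038.Sat.I.M1_4
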